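import Vale.Agent.P042.Defs
import Mathlib.FieldTheory.Perfect
import Mathlib.Algebra.Polynomial.Identities
import Mathlib.Analysis.Polynomial.Basic

set_option autoImplicit false

/-!
P042, lower bounds for general `h`: auxiliary counting lemmas.
-/

namespace Vale.Agent.P042.LB

open Polynomial Finset

/-- Integral Bezout identity for a squarefree polynomial and its derivative. -/
theorem bez (g : ℤ[X]) (hg : Squarefree (g.map (Int.castRingHom ℚ))) :
    ∃ u w : ℤ[X], ∃ D : ℤ, D ≠ 0 ∧ u * g + w * derivative g = C D := by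
  have hinj : Function.Injective (Int.castRingHom ℚ) := RingHom.injective_int _
  rcases Nat.eq_zero_or_pos g.natDegree with h0 | h0
  · refine ⟨1, 0, g.coeff 0, ?_, ?_⟩
    · intro h1
      have h2 : g = 0 := by rw [eq_C_of_natDegree_eq_zero h0, h1, C_0]
      rw [h2, Polynomial.map_zero] at hg
      exact not_squarefree_zero hg
    · rw [zero_mul, add_zero, one_mul]
      exact eq_C_of_natDegree_eq_zero h0
  · have hsep : (g.map (Int.castRingHom ℚ)).Separable :=
      PerfectField.separable_iff_squarefree.2 hg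
    obtain ⟨U, V, -, -, h⟩ := exists_mul_add_mul_eq_C_resultant g (derivative g) le_rfl le_rfl
      (Or.inl h0.ne')
    refine ⟨U, V, resultant g (derivative g), ?_, ?_⟩
    · intro h1
      have h2 := resultant_map_map g (derivative g) g.natDegree (derivative g).natDegree
        (Int.castRingHom ℚ)
      rw [h1, map_zero] at h2
      have h3 : resultant (g.map (Int.castRingHom ℚ))
          ((derivative g).map (Int.castRingHom ℚ)) = 0 := by
        rw [← h2]
        congr 1
        · exact natDegree_map_eq_of_injective hinj g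
        · exact natDegree_map_eq_of_injective hinj _
      refine (resultant_eq_zero_iff.1 h3).2 ?_
      have h4 := hsep
      rwa [Polynomial.Separable, derivative_map] at h4
    · rw [← h]; ring

theorem cop_one_add (q R : ℕ) (hq : 0 < q) (hqR : q.primeFactors ⊆ R.primeFactors) (z : ℤ) :
    IsCoprime (q : ℤ) (1 + R * z) := by
  rw [Int.isCoprime_iff_gcd_eq_one]
  by_contra h
  obtain ⟨p, hp, hpd⟩ := Nat.exists_prime_and_dvd h
  have h1 : (p : ℤ) ∣ (q : ℤ) := (Int.natCast_dvd_natCast.2 hpd).trans (Int.gcd_dvd_left _ _)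
  have h2 : (p : ℤ) ∣ 1 + R * z := (Int.natCast_dvd_natCast.2 hpd).trans (Int.gcd_dvd_right _ _)
  have h3 : p ∈ q.primeFactors :=
    Nat.mem_primeFactors.2 ⟨hp, Int.natCast_dvd_natCast.1 h1, hq.ne'⟩
  have h4 : p ∣ R := (Nat.mem_primeFactors.1 (hqR h3)).2.1
  have h5 : (p : ℤ) ∣ R * z := (Int.natCast_dvd_natCast.2 h4).mul_right z
  have h6 : (p : ℤ) ∣ 1 := by
    have := dvd_sub h2 h5
    rwa [add_sub_cancel_right] at this
  have h7 : p ∣ 1 := by exact_mod_cast h6
  exact hp.one_lt.ne' (Nat.dvd_one.1 h7)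

/-- Two roots modulo `q` which are close modulo the primes of `q` are close modulo `q`. -/
theorem root_close (g u w : ℤ[X]) (D : ℤ) (hb : u * g + w * derivative g = C D)
    (R q : ℕ) (hq : 0 < q) (hqR : q.primeFactors ⊆ R.primeFactors) (x y s : ℤ)
    (hx : (q : ℤ) ∣ g.eval x) (hy : (q : ℤ) ∣ g.eval y) (hxy : y = x + D * R * s) :
    (q : ℤ) ∣ (y - x) * D := by
  obtain ⟨c, hc⟩ := g.binomExpansion x (D * R * s)
  have hb1 := congrArg (eval x) hb
  simp only [eval_add, eval_mul, eval_C] at hb1
  rw [← hxy] at hc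
  have h1 : (q : ℤ) ∣ (D * R * s) * D * (1 + R * (s * (w.eval x * c))) := by
    have e : (D * R * s) * D * (1 + R * (s * (w.eval x * c))) =
        w.eval x * g.eval y - w.eval x * g.eval x + (D * R * s) * (u.eval x * g.eval x) := by
      rw [hc]
      linear_combination (-(D * R * s)) * hb1
    rw [e]
    exact dvd_add (dvd_sub (hy.mul_left _) (hx.mul_left _)) ((hx.mul_left _).mul_left _)
  have h2 := (cop_one_add q R hq hqR (s * (w.eval x * c))).dvd_of_dvd_mul_right h1
  rw [hxy]
  simpa using h2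

/-- The number of zeros of a squarefree polynomial modulo `q`, for all `q` composed of a fixed
finite set of primes. -/
theorem root_card (g : ℤ[X]) (hg : Squarefree (g.map (Int.castRingHom ℚ))) (R : ℕ)
    (hR : 0 < R) :
    ∃ C : ℕ, ∀ q : ℕ, 0 < q → q.primeFactors ⊆ R.primeFactors → ∀ K : ℕ,
      ((range (K * q)).filter (fun n : ℕ => (q : ℤ) ∣ g.eval (n : ℤ))).card ≤ C * K := by
  obtain ⟨u, w, D, hD, hb⟩ := bez g hg
  have hd : 0 < D.natAbs := Int.natAbs_pos.2 hD
  set d := D.natAbs with hdd
  refine ⟨d * R * d, fun q hq hqR K => ?_⟩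
  have hcard : ((range (d * R)) ×ˢ (range (K * d))).card = d * R * d * K := by
    rw [card_product, card_range, card_range]; ring
  rw [← hcard]
  apply card_le_card_of_injOn (fun x : ℕ => (x % (d * R), x * d / q))
  · intro x hx
    simp only [coe_filter, mem_range, Set.mem_setOf_eq] at hx
    simp only [coe_product, Set.mem_prod, mem_coe, mem_range]
    refine ⟨Nat.mod_lt _ (by positivity), ?_⟩
    apply Nat.div_lt_of_lt_mul
    calc x * d < K * q * d := Nat.mul_lt_mul_of_pos_right hx.1 hd
      _ = q * (K * d) := by ring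
  · intro x hx y hy hxy
    simp only [coe_filter, mem_range, Set.mem_setOf_eq] at hx hy
    simp only [Prod.mk.injEq] at hxy
    have h1 : ((d * R : ℕ) : ℤ) ∣ (y : ℤ) - x := by
      have := (Nat.modEq_iff_dvd.1 (show x ≡ y [MOD d * R] from hxy.1))
      exact this
    have h2 : D * R ∣ (y : ℤ) - x := by
      push_cast at h1
      rcases Int.natAbs_eq D with h | h
      · rw [h, ← hdd]; exact h1
      · rw [h, ← hdd, neg_mul]; exact (neg_dvd).2 h1
    obtain ⟨s, hs⟩ := h2
    have h3 := root_close g u w D hb R q hq hqR x y s hx.2 hy.2 (by linear_combination hs)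
    have h4 : (q : ℤ) ∣ ((y * d : ℕ) : ℤ) - ((x * d : ℕ) : ℤ) := by
      push_cast
      have e : (y : ℤ) * d - x * d = (y - x) * d := by ring
      rw [e]
      rcases Int.natAbs_eq D with h | h
      · rw [h, ← hdd] at h3; exact h3
      · rw [h, ← hdd, mul_neg] at h3; exact (dvd_neg).1 h3
    have h5 : (x * d) % q = (y * d) % q := (Nat.modEq_iff_dvd.2 h4)
    have h6 : x * d = y * d := by
      rw [← Nat.div_add_mod (x * d) q, ← Nat.div_add_mod (y * d) q, h5, hxy.2]
    exact Nat.eq_of_mul_eq_mul_right hd h6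

/-- Greedy removal of a finite set of differences. -/
theorem greedy_sub (A E : Finset ℤ) (h0 : (0 : ℤ) ∉ E) :
    ∃ B : Finset ℤ, B ⊆ A ∧ A.card ≤ (2 * E.card + 1) * B.card ∧
      ∀ x ∈ B, ∀ y ∈ B, y - x ∉ E := by
  classical
  let F := A.powerset.filter (fun B => ∀ x ∈ B, ∀ y ∈ B, y - x ∉ E)
  have hF : F.Nonempty := ⟨∅, by simp [F]⟩
  obtain ⟨B, hB, hmax⟩ := exists_max_image F card hF
  simp only [F, mem_filter, mem_powerset] at hB hmax
  refine ⟨B, hB.1, ?_, hB.2⟩
  have hcov : A ⊆ B.biUnion (fun x => insert x (E.image (fun t => x + t) ∪ E.image (fun t => x - t))) := by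
    intro a ha
    simp only [mem_biUnion, mem_insert, mem_union, mem_image]
    by_contra hcon
    push Not at hcon
    have hadd := hmax (insert a B) ⟨insert_subset ha hB.1, ?_⟩
    · have haB : a ∉ B := fun haB => (hcon a haB).1 rfl
      rw [card_insert_of_notMem haB] at hadd
      omega
    · intro x hx y hy hxy
      rw [mem_insert] at hx hy
      rcases hx with rfl | hx <;> rcases hy with rfl | hy
      · rw [sub_self] at hxy; exact h0 hxy
      · exact (hcon y hy).2.2 _ hxy (by ring)
      · exact (hcon x hx).2.1 _ hxy (by ring)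
      · exact hB.2 x hx y hy hxy
  calc A.card ≤ _ := card_le_card hcov
    _ ≤ ∑ x ∈ B, (insert x (E.image (fun t => x + t) ∪ E.image (fun t => x - t))).card :=
        card_biUnion_le
    _ ≤ ∑ x ∈ B, (2 * E.card + 1) := by
        refine sum_le_sum fun x _ => ?_
        refine (card_insert_le _ _).trans ?_
        have h1 := card_union_le (E.image (fun t => x + t)) (E.image (fun t => x - t))
        have h2 : (E.image (fun t => x + t)).card ≤ E.card := card_image_le
        have h3 : (E.image (fun t => x - t)).card ≤ E.card := card_image_le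
        omega
    _ = (2 * E.card + 1) * B.card := by rw [sum_const, smul_eq_mul, mul_comm]

/-- A nonconstant polynomial grows like its leading term. -/
theorem small_card (P : ℤ[X]) (hP : 1 ≤ P.natDegree) :
    ∃ K n0 : ℕ, 0 < K ∧ ∀ n : ℕ, n0 ≤ n → (n : ℤ) ^ P.natDegree ≤ K * |P.eval (n : ℤ)| := by
  have hP0 : P ≠ 0 := by
    rintro rfl
    simp at hP
  set Q : ℝ[X] := P.map (Int.castRingHom ℝ) with hQ
  have hdeg : Q.natDegree = P.natDegree :=
    natDegree_map_eq_of_injective (RingHom.injective_int _) P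
  have hQ0 : Q ≠ 0 := by
    intro h
    rw [h, natDegree_zero] at hdeg
    omega
  have hlc : Q.leadingCoeff ≠ 0 := leadingCoeff_ne_zero.2 hQ0
  have h1 := (Polynomial.isEquivalent_atTop_lead Q).isBigO_symm
  have h2 : (fun x : ℝ => x ^ P.natDegree) =O[Filter.atTop] (fun x => eval x Q) := by
    refine Asymptotics.IsBigO.trans ?_ h1
    rw [hdeg]
    exact Asymptotics.isBigO_self_const_mul hlc _ _
  obtain ⟨c, hc⟩ := h2.bound
  obtain ⟨x0, hx0⟩ := Filter.eventually_atTop.1 hc
  refine ⟨⌈c⌉₊ + 1, ⌈x0⌉₊, Nat.succ_pos _, fun n hn => ?_⟩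
  have h3 := hx0 n (Nat.ceil_le.1 hn)
  rw [Real.norm_eq_abs, Real.norm_eq_abs] at h3
  have h4 : eval (n : ℝ) Q = ((P.eval (n : ℤ) : ℤ) : ℝ) := by
    rw [hQ]
    have := Polynomial.eval_intCast_map (Int.castRingHom ℝ) P (n : ℤ)
    simpa using this
  rw [h4, abs_of_nonneg (by positivity)] at h3
  have h5 : c ≤ ((⌈c⌉₊ + 1 : ℕ) : ℝ) := by
    push_cast
    have := Nat.le_ceil c
    linarith
  have h6 : ((n : ℝ)) ^ P.natDegree ≤ ((⌈c⌉₊ + 1 : ℕ) : ℝ) * |((P.eval (n : ℤ) : ℤ) : ℝ)| :=
    h3.trans (mul_le_mul_of_nonneg_right h5 (abs_nonneg _))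
  exact_mod_cast h6

end Vale.Agent.P042.LB
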