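import Vale.Agent.P042.LB.H522.Loc3

set_option autoImplicit false

/-!
P042, lower bounds for all `h`: **local gain**.
-/

namespace Vale.Agent.P042.LB

open Polynomial Finset

/-- the numerical inequality -/
theorem num_gain (k α η ε v r0 b : ℝ) (hk : 2 ≤ k) (hα : α = 1 / (16 * k ^ 3))
    (hη : η = 1 / (2 * k)) (hε : ε = 1 / (64 * k ^ 2)) (hv : 1 / (2 * k) ≤ v) (hr : r0 ≤ k)
    (hb : b ≤ ε * v) :
    1 + (α ^ 2 * (r0 - 1) - α * ((1 - α) * η) * v + ((1 - α) * η) ^ 2 * b) ≤
      1 - 1 / (512 * k ^ 5) := by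
  have hk0 : 0 < k := by linarith
  have hα0 : 0 < α := by rw [hα]; positivity
  have hη0 : 0 < η := by rw [hη]; positivity
  have hε0 : 0 < ε := by rw [hε]; positivity
  have hv0 : 0 < v := lt_of_lt_of_le (by positivity) hv
  have hα1 : α ≤ 1 / 2 := by
    rw [hα]
    apply one_div_le_one_div_of_le (by norm_num)
    nlinarith [pow_pos hk0 3, pow_le_pow_left₀ (by norm_num) hk 3]
  have e1 : α * k = η * (1 / (2 * k)) / 4 := by
    rw [hα, hη]; field_simp; norm_num
  have e2 : η * ε = α / 8 := by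
    rw [hα, hη, hε]; field_simp; norm_num
  have h1 : α ^ 2 * (r0 - 1) ≤ α * η * v / 4 := by
    calc α ^ 2 * (r0 - 1) ≤ α ^ 2 * k := mul_le_mul_of_nonneg_left (by linarith) (by positivity)
      _ = α * (α * k) := by ring
      _ = α * (η * (1 / (2 * k)) / 4) := by rw [e1]
      _ ≤ α * (η * v / 4) := by
          apply mul_le_mul_of_nonneg_left _ hα0.le
          apply div_le_div_of_nonneg_right _ (by norm_num)
          exact mul_le_mul_of_nonneg_left hv hη0.le
      _ = α * η * v / 4 := by ring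
  have h2 : α * η * v / 2 ≤ α * ((1 - α) * η) * v := by
    have : α * ((1 - α) * η) * v = (1 - α) * (α * η * v) := by ring
    rw [this]
    have h3 : 0 ≤ α * η * v := by positivity
    nlinarith
  have h3 : ((1 - α) * η) ^ 2 * b ≤ α * η * v / 8 := by
    calc ((1 - α) * η) ^ 2 * b ≤ ((1 - α) * η) ^ 2 * (ε * v) :=
          mul_le_mul_of_nonneg_left hb (sq_nonneg _)
      _ ≤ η ^ 2 * (ε * v) := by
          apply mul_le_mul_of_nonneg_right _ (by positivity)
          apply pow_le_pow_left₀ (mul_nonneg (by linarith) hη0.le)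
          nlinarith
      _ = η * v * (η * ε) := by ring
      _ = α * η * v / 8 := by rw [e2]; ring
  have h4 : 1 / (512 * k ^ 5) ≤ α * η * v / 8 := by
    calc 1 / (512 * k ^ 5) = α * η * (1 / (2 * k)) / 8 := by
          rw [hα, hη]; field_simp; norm_num
      _ ≤ α * η * v / 8 := by
          apply div_le_div_of_nonneg_right _ (by norm_num)
          exact mul_le_mul_of_nonneg_left hv (by positivity)
  linarith

theorem local_fp (k : ℕ) (hk : 2 ≤ k) : ∃ p0 : ℕ, ∀ (p : ℕ) [Fact p.Prime], p0 ≤ p →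
    ∀ f : (ZMod p)[X], f.natDegree = k → (∃ t, Fd f t ≠ 0) →
    ∃ w : ZMod p → ℝ, (∀ x, 0 ≤ w x) ∧ (∀ x, w x ≤ 1 / 2) ∧ ∑ x, w x = 1 ∧
      ∑ x, ∑ n, w x * w (x + f.eval n) ≤ 1 - 1 / (512 * (k : ℝ) ^ 5) := by
  classical
  obtain ⟨p1, hp1⟩ := bil_small k (by omega) (1 / (64 * (k : ℝ) ^ 2)) (by positivity)
  refine ⟨max p1 (2 * k + 8), fun p _ hp f hf ht => ?_⟩
  have hpp1 : p1 ≤ p := le_trans (le_max_left _ _) hp
  have hpk : 2 * k + 8 ≤ p := le_trans (le_max_right _ _) hp
  have hpR : (0 : ℝ) < p := by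
    have : 0 < p := by omega
    exact_mod_cast this
  have hkR : (2 : ℝ) ≤ k := by exact_mod_cast hk
  have hk0 : (0 : ℝ) < k := by linarith
  set α : ℝ := 1 / (16 * (k : ℝ) ^ 3) with hα
  set η : ℝ := 1 / (2 * (k : ℝ)) with hη
  set β : ℝ := (1 - α) * η with hβ
  have hα0 : 0 < α := by positivity
  have hη0 : 0 < η := by positivity
  have hα1 : α ≤ 1 / 128 := by
    rw [hα]
    apply one_div_le_one_div_of_le (by norm_num)
    have := pow_le_pow_left₀ (by norm_num) hkR 3
    nlinarith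
  set u : ZMod p → ℝ := fun x => α * ua p x - β * ub f x with hu
  have husum : ∑ x, u x = 0 := by
    rw [hu, sum_sub_distrib, ← mul_sum, ← mul_sum, sum_ua, sum_ub]
    ring
  have hFb : ∀ t, -2 ≤ (Fd f t : ℝ) ∧ (Fd f t : ℝ) ≤ 2 * k - 2 := by
    intro t
    obtain ⟨h1, h2⟩ := Fd_bound f (by omega) t
    rw [hf] at h2
    constructor
    · exact_mod_cast h1
    · exact_mod_cast h2
  have hform : ∀ x, 1 / (p : ℝ) + u x =
      α * (if x = 0 then 1 else 0) + (1 - α) / p * (1 - η * Fd f x) := by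
    intro x
    rw [hu]
    simp only [ua, ub, hβ]
    field_simp
    ring
  refine ⟨fun x => 1 / (p : ℝ) + u x, ?_, ?_, ?_, ?_⟩
  · intro x
    show 0 ≤ 1 / (p : ℝ) + u x
    rw [hform]
    have h1 : 0 ≤ 1 - η * Fd f x := by
      have h2 : η * Fd f x ≤ η * (2 * k - 2) := mul_le_mul_of_nonneg_left (hFb x).2 hη0.le
      have h3 : η * (2 * k - 2) ≤ 1 := by
        rw [hη, div_mul_eq_mul_div, div_le_one (by positivity)]
        linarith
      linarith
    have h2 : 0 ≤ (1 - α) / p := div_nonneg (by linarith) hpR.le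
    have h3 : 0 ≤ α * (if x = 0 then (1 : ℝ) else 0) := by
      split_ifs <;> simp [hα0.le]
    have := mul_nonneg h2 h1
    linarith
  · intro x
    show 1 / (p : ℝ) + u x ≤ 1 / 2
    rw [hform]
    have h1 : 1 - η * Fd f x ≤ 2 := by
      have h2 : η * (-2) ≤ η * Fd f x := mul_le_mul_of_nonneg_left (hFb x).1 hη0.le
      have h3 : η ≤ 1 / 4 := by
        rw [hη]
        apply one_div_le_one_div_of_le (by norm_num)
        linarith
      linarith
    have h2 : (1 - α) / p ≤ 1 / 8 := by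
      have h8 : (8 : ℝ) ≤ p := by
        have : 8 ≤ p := by omega
        exact_mod_cast this
      calc (1 - α) / p ≤ 1 / p := div_le_div_of_nonneg_right (by linarith) hpR.le
        _ ≤ 1 / 8 := one_div_le_one_div_of_le (by norm_num) h8
    have h2' : 0 ≤ (1 - α) / p := div_nonneg (by linarith) hpR.le
    have h3 : α * (if x = 0 then (1 : ℝ) else 0) ≤ 1 / 128 := by
      split_ifs
      · linarith
      · rw [mul_zero]; norm_num
    have h4 : (1 - α) / p * (1 - η * Fd f x) ≤ 1 / 8 * 2 := by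
      calc (1 - α) / p * (1 - η * Fd f x) ≤ (1 - α) / p * 2 := mul_le_mul_of_nonneg_left h1 h2'
        _ ≤ 1 / 8 * 2 := mul_le_mul_of_nonneg_right h2 (by norm_num)
    linarith
  · rw [sum_add_distrib, husum, sum_const, card_univ, ZMod.card, nsmul_eq_mul, add_zero]
    field_simp
  · rw [bil_expand f u husum, hu, bil_comb, bil_aa, bil_cross]
    obtain ⟨t0, ht0⟩ := ht
    have hsupp := supp_Fd f (by omega) (by omega) (by omega) t0 ht0
    rw [hf] at hsupp
    set B := univ.filter (fun t : ZMod p => Fd f t ≠ 0) with hB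
    have hBpos : 1 ≤ B.card := by
      apply card_pos.2
      exact ⟨t0, mem_filter.2 ⟨mem_univ _, ht0⟩⟩
    have hsum : (B.card : ℝ) ≤ ∑ t, (Fd f t : ℝ) ^ 2 := by
      calc (B.card : ℝ) = ∑ t ∈ B, (1 : ℝ) := by simp
        _ ≤ ∑ t ∈ B, (Fd f t : ℝ) ^ 2 := by
            refine sum_le_sum fun t ht => ?_
            have h1 : Fd f t ≠ 0 := (mem_filter.1 ht).2
            have h2 : 1 ≤ (Fd f t) ^ 2 := by
              have := Int.one_le_abs h1
              nlinarith [sq_abs (Fd f t)]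
            exact_mod_cast h2
        _ ≤ ∑ t, (Fd f t : ℝ) ^ 2 :=
            sum_le_sum_of_subset_of_nonneg (subset_univ _) fun _ _ _ => sq_nonneg _
    have hv : 1 / (2 * (k : ℝ)) ≤ (∑ t, (Fd f t : ℝ) ^ 2) / p := by
      rw [div_le_div_iff₀ (by positivity) hpR, one_mul]
      have h1 : (p : ℝ) ≤ 2 * k * B.card := by
        have h2 : p ≤ 2 * k * B.card := by
          have h3 : 2 * k * (B.card - 1) + 2 * k = 2 * k * B.card := by
            rw [← Nat.mul_succ]
            congr 1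
            omega
          omega
        exact_mod_cast h2
      calc (p : ℝ) ≤ 2 * k * B.card := h1
        _ = B.card * (2 * k) := by ring
        _ ≤ _ := mul_le_mul_of_nonneg_right hsum (by positivity)
    have hb : Bil f (ub f) (ub f) ≤ 1 / (64 * (k : ℝ) ^ 2) * ((∑ t, (Fd f t : ℝ) ^ 2) / p) := by
      have h1 := (le_abs_self _).trans (hp1 p hpp1 f hf (ub f) (sum_ub f))
      have h2 : (p : ℝ) * ∑ x, ub f x ^ 2 = (∑ t, (Fd f t : ℝ) ^ 2) / p := by
        simp only [ub, div_pow]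
        rw [← sum_div]
        field_simp
      rw [h2] at h1
      exact h1
    have hr : ((rh f 0 : ℕ) : ℝ) ≤ k := by
      have := rh_le f (by omega) 0
      rw [hf] at this
      exact_mod_cast this
    exact num_gain k α η (1 / (64 * (k : ℝ) ^ 2)) _ _ _ hkR hα hη rfl hv hr hb

theorem sum_range_zmod {p : ℕ} [Fact p.Prime] (G : ZMod p → ℝ) :
    ∑ z ∈ range p, G (z : ZMod p) = ∑ x, G x := by
  symm
  refine Finset.sum_bij' (fun x _ => x.val) (fun z _ => (z : ZMod p)) ?_ ?_ ?_ ?_ ?_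
  · intro x _
    exact mem_range.2 (ZMod.val_lt x)
  · intro z _
    exact mem_univ _
  · intro x _
    exact ZMod.natCast_zmod_val x
  · intro z hz
    exact ZMod.val_natCast_of_lt (mem_range.1 hz)
  · intro x _
    rw [ZMod.natCast_zmod_val]

/-- **Local gain.** -/
theorem local_gain (h : ℤ[X]) (hk : 2 ≤ h.natDegree) :
    ∃ δ : ℝ, 0 < δ ∧ δ ≤ 1 / 2 ∧ ∃ p0 : ℕ, ∀ p : ℕ, p.Prime → p0 ≤ p →
      (2 * h.natDegree ∣ p - 1 ∨
        ∃ x y : ℤ, ¬ (p : ℤ) ∣ x - y ∧ (p : ℤ) ∣ h.eval x ∧ (p : ℤ) ∣ h.eval y) →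
      LocW h p δ := by
  classical
  obtain ⟨p1, hp1⟩ := local_fp h.natDegree hk
  have hkR : (2 : ℝ) ≤ h.natDegree := by exact_mod_cast hk
  refine ⟨1 / (512 * (h.natDegree : ℝ) ^ 5), by positivity, ?_,
    max p1 (h.leadingCoeff.natAbs + 3), ?_⟩
  · apply one_div_le_one_div_of_le (by norm_num)
    have := pow_le_pow_left₀ (by norm_num) hkR 5
    nlinarith
  intro p hp hp0 hor
  have : Fact p.Prime := ⟨hp⟩
  have hpp1 : p1 ≤ p := le_trans (le_max_left _ _) hp0
  have hplc : h.leadingCoeff.natAbs + 3 ≤ p := le_trans (le_max_right _ _) hp0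
  have hh0 : h ≠ 0 := by
    rintro rfl
    simp at hk
  have hlc : (Int.castRingHom (ZMod p)) h.leadingCoeff ≠ 0 := by
    rw [eq_intCast]
    intro h1
    rw [ZMod.intCast_zmod_eq_zero_iff_dvd] at h1
    have h2 : p ∣ h.leadingCoeff.natAbs := Int.natCast_dvd.1 h1
    have h3 := Nat.le_of_dvd (Int.natAbs_pos.2 (leadingCoeff_ne_zero.2 hh0)) h2
    omega
  set f : (ZMod p)[X] := h.map (Int.castRingHom (ZMod p)) with hf
  have hdeg : f.natDegree = h.natDegree := natDegree_map_of_leadingCoeff_ne_zero _ hlc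
  have hev : ∀ n : ℤ, ((h.eval n : ℤ) : ZMod p) = f.eval ((n : ℤ) : ZMod p) := by
    intro n
    rw [hf, eval_intCast_map, eq_intCast, Int.cast_id]
  have hex : ∃ t, Fd f t ≠ 0 := by
    rcases hor with hor | ⟨x, y, hxy, hx, hy⟩
    · exact exists_Fd_ne f (by omega) (by omega) (by rw [hdeg]; exact hor)
    · refine ⟨0, ?_⟩
      have h1 : 2 ≤ rh f 0 := by
        have h2 : ({(x : ZMod p), (y : ZMod p)} : Finset (ZMod p)).card = 2 := by
          apply card_pair
          intro h3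
          apply hxy
          rw [← ZMod.intCast_zmod_eq_zero_iff_dvd]
          push_cast
          rw [h3, sub_self]
        rw [← h2, rh]
        apply card_le_card
        intro z hz
        rw [mem_insert, mem_singleton] at hz
        rw [mem_filter]
        refine ⟨mem_univ _, ?_⟩
        rcases hz with rfl | rfl
        · rw [← hev, ZMod.intCast_zmod_eq_zero_iff_dvd]; exact hx
        · rw [← hev, ZMod.intCast_zmod_eq_zero_iff_dvd]; exact hy
      rw [Fd, neg_zero]
      omega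
  obtain ⟨w, hw0, hw1, hw2, hw3⟩ := hp1 p hpp1 f hdeg hex
  refine ⟨fun z => w (z : ZMod p), fun z => hw0 _, fun z => hw1 _, fun z => ?_, ?_, ?_⟩
  · simp
  · have := sum_range_zmod w
    simpa using this.trans hw2
  · rw [sum_comm] at hw3
    calc ∑ n ∈ range p, ∑ z ∈ range p,
          w (((z : ℕ) : ℤ) : ZMod p) * w ((((z : ℕ) : ℤ) + h.eval ((n : ℕ) : ℤ) : ℤ) : ZMod p)
        = ∑ n ∈ range p, ∑ z ∈ range p,
          w ((z : ℕ) : ZMod p) * w (((z : ℕ) : ZMod p) + f.eval ((n : ℕ) : ZMod p)) := by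
          refine sum_congr rfl fun n _ => sum_congr rfl fun z _ => ?_
          rw [Int.cast_add, hev]
          simp only [Int.cast_natCast]
      _ = ∑ n : ZMod p, ∑ x : ZMod p, w x * w (x + f.eval n) := by
          rw [← sum_range_zmod (fun n => ∑ x : ZMod p, w x * w (x + f.eval n))]
          refine sum_congr rfl fun n _ => ?_
          exact sum_range_zmod (fun x => w x * w (x + f.eval (n : ZMod p)))
      _ ≤ _ := hw3

end Vale.Agent.P042.LB
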