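import Mathlib.Algebra.BigOperators.Ring.Finset
import Mathlib.Algebra.BigOperators.Intervals
import Mathlib.Data.Nat.ChineseRemainder
import Mathlib.Data.Nat.Prime.Basic
import Mathlib.Data.Real.Basic
import Mathlib.Tactic.Linarith
import Mathlib.Tactic.Positivity
import Mathlib.Tactic.Ring
import Mathlib.Tactic.NormNum
import Mathlib.Tactic.LinearCombination
import Mathlib.Algebra.Order.BigOperators.Ring.Finset

set_option autoImplicit false

/-!
P042, lower bounds for all `h`: sums of products of periodic functions.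
-/

namespace Vale.Agent.P042.LB

open Finset

theorem per_mul (F : ℤ → ℝ) (q : ℕ) (hF : ∀ z, F (z + q) = F z) (z : ℤ) (t : ℕ) :
    F (z + (q : ℤ) * t) = F z := by
  induction t with
  | zero => simp
  | succ t ih =>
    have e : z + (q : ℤ) * ((t + 1 : ℕ) : ℤ) = (z + (q : ℤ) * t) + q := by push_cast; ring
    rw [e, hF, ih]

theorem per_mod (F : ℤ → ℝ) (q : ℕ) (hF : ∀ z, F (z + q) = F z) (z : ℕ) :
    F ((z : ℕ) : ℤ) = F (((z % q : ℕ)) : ℤ) := by
  have e : ((z : ℕ) : ℤ) = ((z % q : ℕ) : ℤ) + (q : ℤ) * ((z / q : ℕ) : ℤ) := by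
    exact_mod_cast (Nat.mod_add_div z q).symm
  rw [e, per_mul F q hF]

/-- a full number of periods -/
theorem sum_blocks (F : ℤ → ℝ) (q : ℕ) (hF : ∀ z, F (z + q) = F z) (L : ℕ) :
    ∑ z ∈ range (L * q), F z = L * ∑ z ∈ range q, F z := by
  induction L with
  | zero => simp
  | succ L ih =>
    rw [Nat.succ_mul, sum_range_add, ih]
    have h1 : ∑ x ∈ range q, F ((L * q + x : ℕ) : ℤ) = ∑ x ∈ range q, F x := by
      refine sum_congr rfl fun x _ => ?_
      have e : ((L * q + x : ℕ) : ℤ) = (x : ℤ) + (q : ℤ) * L := by push_cast; ring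
      rw [e, per_mul F q hF]
    rw [h1]
    push_cast
    ring

/-- two coprime periods -/
theorem sum_two (a b : ℕ) (ha : 0 < a) (hb : 0 < b) (hco : Nat.Coprime a b) (F G : ℤ → ℝ)
    (hF : ∀ z, F (z + a) = F z) (hG : ∀ z, G (z + b) = G z) :
    ∑ z ∈ range (a * b), F z * G z = (∑ z ∈ range a, F z) * ∑ z ∈ range b, G z := by
  rw [sum_mul_sum, ← sum_product']
  refine Finset.sum_bij' (fun z _ => (z % a, z % b))
    (fun w _ => (Nat.chineseRemainder hco w.1 w.2 : ℕ)) ?_ ?_ ?_ ?_ ?_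
  · intro z _
    rw [mem_product, mem_range, mem_range]
    exact ⟨Nat.mod_lt _ ha, Nat.mod_lt _ hb⟩
  · intro w _
    exact mem_range.2 (Nat.chineseRemainder_lt_mul hco w.1 w.2 ha.ne' hb.ne')
  · intro z hz
    have h1 := (Nat.chineseRemainder hco (z % a) (z % b)).2
    have h2 : (Nat.chineseRemainder hco (z % a) (z % b) : ℕ) ≡ z [MOD a * b] := by
      rw [← Nat.modEq_and_modEq_iff_modEq_mul hco]
      exact ⟨h1.1.trans (Nat.mod_modEq z a), h1.2.trans (Nat.mod_modEq z b)⟩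
    have h3 := Nat.chineseRemainder_lt_mul hco (z % a) (z % b) ha.ne' hb.ne'
    exact Nat.ModEq.eq_of_lt_of_lt h2 h3 (mem_range.1 hz)
  · intro w hw
    rw [mem_product, mem_range, mem_range] at hw
    have h1 := (Nat.chineseRemainder hco w.1 w.2).2
    apply Prod.ext
    · have h2 : (Nat.chineseRemainder hco w.1 w.2 : ℕ) % a = w.1 % a := h1.1
      simp only [h2, Nat.mod_eq_of_lt hw.1]
    · have h2 : (Nat.chineseRemainder hco w.1 w.2 : ℕ) % b = w.2 % b := h1.2
      simp only [h2, Nat.mod_eq_of_lt hw.2]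
  · intro z _
    rw [per_mod F a hF z, per_mod G b hG z]

/-- **CRT for products of periodic functions.** -/
theorem sum_prod_periodic (P : Finset ℕ) (hP : ∀ p ∈ P, p.Prime) (G : ℕ → ℤ → ℝ)
    (hG : ∀ p ∈ P, ∀ z, G p (z + p) = G p z) :
    ∑ z ∈ range (∏ p ∈ P, p), ∏ p ∈ P, G p z = ∏ p ∈ P, ∑ z ∈ range p, G p z := by
  classical
  induction P using Finset.induction_on with
  | empty => simp
  | insert p P hp ih =>
    have hPp : ∀ q ∈ P, q.Prime := fun q hq => hP q (mem_insert_of_mem hq)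
    have hGp : ∀ q ∈ P, ∀ z, G q (z + q) = G q z := fun q hq => hG q (mem_insert_of_mem hq)
    have hpp : p.Prime := hP p (mem_insert_self p P)
    have hpos : 0 < ∏ q ∈ P, q := prod_pos fun q hq => (hPp q hq).pos
    have hco : Nat.Coprime p (∏ q ∈ P, q) := by
      apply Nat.Coprime.prod_right
      intro q hq
      exact (Nat.coprime_primes hpp (hPp q hq)).2 (fun h => hp (h ▸ hq))
    have hper : ∀ z : ℤ, ∏ q ∈ P, G q (z + (∏ r ∈ P, r : ℕ)) = ∏ q ∈ P, G q z := by
      intro z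
      refine prod_congr rfl fun q hq => ?_
      obtain ⟨t, ht⟩ := dvd_prod_of_mem (fun r => r) hq
      have e : z + ((∏ r ∈ P, r : ℕ) : ℤ) = z + (q : ℤ) * t := by
        have : (∏ r ∈ P, r) = q * t := ht
        rw [this]; push_cast; ring
      rw [e, per_mul (G q) q (hGp q hq)]
    rw [prod_insert hp, prod_insert hp]
    rw [← ih hPp hGp, ← sum_two p (∏ q ∈ P, q) hpp.pos hpos hco (G p)
      (fun z => ∏ q ∈ P, G q z) (hG p (mem_insert_self p P)) hper]
    refine sum_congr rfl fun z _ => ?_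
    rw [prod_insert hp]

theorem prod_periodic (P : Finset ℕ) (G : ℕ → ℤ → ℝ)
    (hG : ∀ p ∈ P, ∀ z, G p (z + p) = G p z) (z : ℤ) :
    ∏ q ∈ P, G q (z + (∏ r ∈ P, r : ℕ)) = ∏ q ∈ P, G q z := by
  refine prod_congr rfl fun q hq => ?_
  obtain ⟨t, ht⟩ := dvd_prod_of_mem (fun r => r) hq
  have e : z + ((∏ r ∈ P, r : ℕ) : ℤ) = z + (q : ℤ) * t := by
    have : (∏ r ∈ P, r) = q * t := ht
    rw [this]; push_cast; ring
  rw [e, per_mul (G q) q (hG q hq)]

/-- two variables: `L` blocks in `z`, `M` blocks in `n` -/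
theorem sum_two_var (P : Finset ℕ) (hP : ∀ p ∈ P, p.Prime) (w : ℕ → ℤ → ℝ) (H : ℤ → ℤ)
    (hH : ∀ p ∈ P, ∀ n : ℤ, (p : ℤ) ∣ H (n + p) - H n)
    (hw : ∀ p ∈ P, ∀ z, w p (z + p) = w p z) (L M : ℕ) :
    ∑ n ∈ range (M * ∏ p ∈ P, p), ∑ z ∈ range (L * ∏ p ∈ P, p),
        (∏ p ∈ P, w p z) * ∏ p ∈ P, w p (z + H n) =
      M * L * ∏ p ∈ P, ∑ n ∈ range p, ∑ z ∈ range p, w p z * w p (z + H n) := by
  classical
  have hwt : ∀ p ∈ P, ∀ z t : ℤ, w p (z + (p : ℤ) * t) = w p z := by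
    intro p hp z t
    rcases Int.eq_nat_or_neg t with ⟨s, rfl | rfl⟩
    · exact per_mul (w p) p (hw p hp) z s
    · have := per_mul (w p) p (hw p hp) (z + (p : ℤ) * (-(s : ℤ))) s
      rw [← this]
      congr 1
      ring
  -- inner sum
  have h1 : ∀ n : ℤ, ∑ z ∈ range (L * ∏ p ∈ P, p), (∏ p ∈ P, w p z) * ∏ p ∈ P, w p (z + H n) =
      L * ∏ p ∈ P, ∑ z ∈ range p, w p z * w p (z + H n) := by
    intro n
    have hper : ∀ p ∈ P, ∀ z : ℤ, (fun p (z : ℤ) => w p z * w p (z + H n)) p (z + p) =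
        (fun p (z : ℤ) => w p z * w p (z + H n)) p z := by
      intro p hp z
      simp only
      rw [hw p hp z]
      have e : z + (p : ℤ) + H n = (z + H n) + p := by ring
      rw [e, hw p hp]
    have h2 := sum_blocks (fun z => ∏ p ∈ P, (w p z * w p (z + H n))) (∏ p ∈ P, p)
      (fun z => prod_periodic P (fun p (z : ℤ) => w p z * w p (z + H n)) hper z) L
    have h3 := sum_prod_periodic P hP (fun p (z : ℤ) => w p z * w p (z + H n)) hper
    simp only [← prod_mul_distrib]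
    rw [h2, h3]
  simp_rw [h1]
  rw [← mul_sum]
  have hper2 : ∀ p ∈ P, ∀ n : ℤ,
      (fun p (n : ℤ) => ∑ z ∈ range p, w p z * w p (z + H n)) p (n + p) =
        (fun p (n : ℤ) => ∑ z ∈ range p, w p z * w p (z + H n)) p n := by
    intro p hp n
    simp only
    refine sum_congr rfl fun z _ => ?_
    obtain ⟨t, ht⟩ := hH p hp n
    have e : (z : ℤ) + H (n + p) = ((z : ℤ) + H n) + (p : ℤ) * t := by linear_combination ht
    rw [e, hwt p hp]
  have h4 := sum_blocks (fun n => ∏ p ∈ P, ∑ z ∈ range p, w p z * w p (z + H n)) (∏ p ∈ P, p)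
    (fun n => prod_periodic P (fun p (n : ℤ) => ∑ z ∈ range p, w p z * w p (z + H n)) hper2 n) M
  have h5 := sum_prod_periodic P hP (fun p (n : ℤ) => ∑ z ∈ range p, w p z * w p (z + H n)) hper2
  rw [h4, h5]
  ring

end Vale.Agent.P042.LB
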