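import Vale.Agent.P042.LB.H522.Transfer

set_option autoImplicit false

/-!
P042, lower bounds for `h = a g^m f`: independent systems modulo `b^v`, `b` squarefree.
-/

namespace Vale.Agent.P042.LB

open Polynomial Finset

theorem IndF.one (Φ : Set ℤ) (m : ℕ) : IndF Φ m 1 1 := by
  refine ⟨{0}, by simp, by simp, ?_⟩
  intro x hx y hy s φ _ _
  rw [mem_singleton] at hx hy
  rw [hx, hy]

/-- One digit step in base `b ^ m`. -/
theorem IndF.cons {Φ : Set ℤ} {m b n q' n' : ℕ} (hm : m ≠ 0) (hb : 0 < b)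
    (hcop : ∀ φ ∈ Φ, IsCoprime φ (b : ℤ)) (h1 : IndF Φ m b n) (h2 : IndF Φ m q' n') :
    IndF Φ m (b * q') (n * n') := by
  classical
  obtain ⟨X, hXc, hXl, hXp⟩ := h1
  obtain ⟨Y, hYc, hYl, hYp⟩ := h2
  have hB : 0 < b ^ m := pow_pos hb m
  refine ⟨(X ×ˢ Y).image (fun p => p.1 + b ^ m * p.2), ?_, ?_, ?_⟩
  · rw [card_image_of_injOn, card_product, hXc, hYc]
    rintro ⟨x, y⟩ h1 ⟨x', y'⟩ h2 heq
    simp only [coe_product, Set.mem_prod, mem_coe] at h1 h2
    simp only at heq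
    have e1 : x = x' := by
      have := congrArg (· % b ^ m) heq
      simpa [Nat.mod_eq_of_lt (hXl x h1.1), Nat.mod_eq_of_lt (hXl x' h2.1)] using this
    subst e1
    have e2 : b ^ m * y = b ^ m * y' := by omega
    rw [Nat.eq_of_mul_eq_mul_left hB e2]
  · intro z hz
    simp only [mem_image, mem_product, Prod.exists] at hz
    obtain ⟨x, y, ⟨hx, hy⟩, rfl⟩ := hz
    have h1 := hXl x hx
    have h2 := hYl y hy
    calc x + b ^ m * y < b ^ m + b ^ m * y := by omega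
      _ = b ^ m * (y + 1) := by ring
      _ ≤ b ^ m * q' ^ m := Nat.mul_le_mul_left _ h2
      _ = (b * q') ^ m := (mul_pow _ _ _).symm
  · intro z hz z' hz' s φ hφ hs
    simp only [mem_image, mem_product, Prod.exists] at hz hz'
    obtain ⟨x, y, ⟨hx, hy⟩, rfl⟩ := hz
    obtain ⟨x', y', ⟨hx', hy'⟩, rfl⟩ := hz'
    obtain ⟨c, hc⟩ := hs
    push_cast [mul_pow] at hc
    have hd1 : ((b ^ m : ℕ) : ℤ) ∣ (x' : ℤ) - x - φ * s ^ m := by
      refine ⟨(q' : ℤ) ^ m * c - y' + y, ?_⟩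
      push_cast
      linear_combination hc
    have e1 := hXp x hx x' hx' s φ hφ hd1
    subst e1
    have h3 : ((b : ℤ)) ^ m ∣ φ * s ^ m := by
      rw [sub_self, zero_sub, dvd_neg] at hd1
      exact_mod_cast hd1
    have h4 : IsCoprime ((b : ℤ) ^ m) φ := (hcop _ hφ).symm.pow_left
    have h5 : (b : ℤ) ∣ s := (Int.pow_dvd_pow_iff hm).1 (h4.dvd_of_dvd_mul_left h3)
    obtain ⟨s1, rfl⟩ := h5
    have hb' : ((b : ℤ)) ^ m ≠ 0 := by positivity
    have hd2 : ((q' ^ m : ℕ) : ℤ) ∣ (y' : ℤ) - y - φ * s1 ^ m := by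
      refine ⟨c, ?_⟩
      apply mul_left_cancel₀ hb'
      push_cast
      rw [mul_pow] at hc
      linear_combination hc
    rw [hYp y hy y' hy' s1 φ hφ hd2]

theorem IndF.pow {Φ : Set ℤ} {m b n : ℕ} (hm : m ≠ 0) (hb : 0 < b)
    (hcop : ∀ φ ∈ Φ, IsCoprime φ (b : ℤ)) (h1 : IndF Φ m b n) (v : ℕ) :
    IndF Φ m (b ^ v) (n ^ v) := by
  induction v with
  | zero => simpa using IndF.one Φ m
  | succ v ih =>
    have := IndF.cons hm hb hcop h1 ih
    rwa [← pow_succ', ← pow_succ'] at this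

/-- Free digits above the first one, squarefree base. -/
theorem IndF.free {Φ : Set ℤ} {m b : ℕ} (hm : m ≠ 0) (hb : Squarefree b)
    (hcop : ∀ φ ∈ Φ, IsCoprime φ (b : ℤ)) (S : Finset ℕ) (hS : ∀ x ∈ S, x < b)
    (hind : ∀ x ∈ S, ∀ y ∈ S, ∀ s : ℤ, ∀ φ ∈ Φ, (b : ℤ) ∣ (y : ℤ) - x - φ * s ^ m → x = y) :
    IndF Φ m b (S.card * b ^ (m - 1)) := by
  classical
  have hb0 : 0 < b := Nat.pos_of_ne_zero hb.ne_zero
  have hbm : b ^ m = b * b ^ (m - 1) := by
    rw [← pow_succ']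
    congr 1
    omega
  refine ⟨(S ×ˢ range (b ^ (m - 1))).image (fun p => p.1 + b * p.2), ?_, ?_, ?_⟩
  · rw [card_image_of_injOn, card_product, card_range]
    rintro ⟨x, y⟩ h1 ⟨x', y'⟩ h2 heq
    simp only [coe_product, Set.mem_prod, mem_coe] at h1 h2
    simp only at heq
    have e1 : x = x' := by
      have := congrArg (· % b) heq
      simpa [Nat.mod_eq_of_lt (hS x h1.1), Nat.mod_eq_of_lt (hS x' h2.1)] using this
    subst e1
    have e2 : b * y = b * y' := by omega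
    rw [Nat.eq_of_mul_eq_mul_left hb0 e2]
  · intro z hz
    simp only [mem_image, mem_product, Prod.exists, mem_range] at hz
    obtain ⟨x, y, ⟨hx, hy⟩, rfl⟩ := hz
    have h1 := hS x hx
    calc x + b * y < b + b * y := by omega
      _ = b * (y + 1) := by ring
      _ ≤ b * b ^ (m - 1) := Nat.mul_le_mul_left _ hy
      _ = b ^ m := hbm.symm
  · intro z hz z' hz' s φ hφ hs
    simp only [mem_image, mem_product, Prod.exists, mem_range] at hz hz'
    obtain ⟨x, y, ⟨hx, hy⟩, rfl⟩ := hz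
    obtain ⟨x', y', ⟨hx', hy'⟩, rfl⟩ := hz'
    obtain ⟨c, hc⟩ := hs
    rw [hbm] at hc
    push_cast at hc
    have hd1 : (b : ℤ) ∣ (x' : ℤ) - x - φ * s ^ m := by
      refine ⟨(b : ℤ) ^ (m - 1) * c - y' + y, ?_⟩
      linear_combination hc
    have e1 := hind x hx x' hx' s φ hφ hd1
    subst e1
    have h3 : (b : ℤ) ∣ φ * s ^ m := by
      rw [sub_self, zero_sub, dvd_neg] at hd1
      exact hd1
    have h4 : (b : ℤ) ∣ s ^ m := (hcop _ hφ).symm.dvd_of_dvd_mul_left h3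
    have hsq : Squarefree (b : ℤ) := by rwa [Int.squarefree_natCast]
    have h5 : (b : ℤ) ∣ s := (hsq.dvd_pow_iff_dvd hm).1 h4
    obtain ⟨s1, rfl⟩ := h5
    have hb' : (b : ℤ) ≠ 0 := by exact_mod_cast hb0.ne'
    have hbmz : (b : ℤ) ^ m = b * b ^ (m - 1) := by exact_mod_cast hbm
    have h6 : (y' : ℤ) - y = (b : ℤ) ^ (m - 1) * (c + φ * s1 ^ m) := by
      apply mul_left_cancel₀ hb'
      rw [mul_pow, hbmz] at hc
      linear_combination hc
    have hy1 : (y : ℤ) < (b : ℤ) ^ (m - 1) := by exact_mod_cast hy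
    have hy2 : (y' : ℤ) < (b : ℤ) ^ (m - 1) := by exact_mod_cast hy'
    have hy3 : (0 : ℤ) ≤ y := Int.natCast_nonneg _
    have hy4 : (0 : ℤ) ≤ y' := Int.natCast_nonneg _
    have h7 : (y' : ℤ) - y = 0 := by
      apply Int.eq_zero_of_abs_lt_dvd (m := (b : ℤ) ^ (m - 1)) ⟨_, h6⟩
      rw [abs_lt]
      constructor <;> linarith
    have h8 : y' = y := by
      have : (y' : ℤ) = y := by linarith
      exact_mod_cast this
    rw [h8]

/-- **Lower bound for `h = a g^m f`.** -/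
theorem lb_fam (g f : ℤ[X]) (hg : Squarefree (g.map (Int.castRingHom ℚ)))
    (hd : 1 ≤ g.natDegree) (hf : f ≠ 0) (a : ℕ) (ha : 0 < a) (m : ℕ) (hm : 1 ≤ m)
    (b : ℕ) (hb2 : 2 ≤ b) (hb : Squarefree b)
    (hfb : ∀ n : ℕ, 1 ≤ n → IsCoprime (f.eval (n : ℤ)) (b : ℤ))
    (S : Finset ℕ) (hS : ∀ x ∈ S, x < b) (hSne : S.Nonempty)
    (hind : ∀ x ∈ S, ∀ y ∈ S, ∀ s : ℤ, ∀ n : ℕ, 1 ≤ n →
      (b : ℤ) ∣ (y : ℤ) - x - f.eval (n : ℤ) * s ^ m → x = y) :
    ∃ c : ℝ, 0 < c ∧ ∀ N : ℕ, 1 ≤ N →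
      c * (N : ℝ) ^ (1 - (1 - Real.log S.card / Real.log b) / ((g ^ m * f).natDegree : ℝ)) ≤
        (rMax (C (a : ℤ) * (g ^ m * f)) N : ℝ) := by
  classical
  have hg0 : g ≠ 0 := by
    rintro rfl
    simp at hd
  have hkk : (g ^ m * f).natDegree = m * g.natDegree + f.natDegree := by
    rw [natDegree_mul (pow_ne_zero _ hg0) hf, natDegree_pow]
  have hmk : m ≤ (g ^ m * f).natDegree := by rw [hkk]; nlinarith
  have hk : 1 ≤ (g ^ m * f).natDegree := hm.trans hmk
  set k := (g ^ m * f).natDegree with hkdef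
  set Φ : Set ℤ := {φ | ∃ n : ℕ, 1 ≤ n ∧ φ = f.eval (n : ℤ)} with hΦ
  have hb0 : 0 < b := by omega
  have hcop : ∀ φ ∈ Φ, IsCoprime φ (b : ℤ) := by
    rintro φ ⟨n, hn, rfl⟩
    exact hfb n hn
  have hfree : IndF Φ m b (S.card * b ^ (m - 1)) := by
    apply IndF.free (by omega) hb hcop S hS
    rintro x hx y hy s φ ⟨n, hn, rfl⟩ hdv
    exact hind x hx y hy s n hn hdv
  obtain ⟨c, hc, hmain⟩ := transferF g f hg a ha m hm hk Φ (fun n hn => ⟨n, hn, rfl⟩) b
    (a * b ^ k) hb0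
  set s : ℕ := S.card with hs
  have hs1 : 1 ≤ s := hSne.card_pos
  have hsb : s ≤ b := by
    calc s ≤ (range b).card := card_le_card (fun x hx => mem_range.2 (hS x hx))
      _ = b := card_range b
  set σ : ℝ := 1 - Real.log s / Real.log b with hσ
  have hlb : 0 < Real.log b := Real.log_pos (by exact_mod_cast hb2)
  have hσ0 : 0 ≤ σ := by
    rw [hσ, sub_nonneg, div_le_one hlb]
    exact Real.log_le_log (by exact_mod_cast hs1) (by exact_mod_cast hsb)
  have hkR : (1 : ℝ) ≤ k := by exact_mod_cast hk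
  set e : ℝ := 1 - σ / k with he
  have he1 : e ≤ 1 := by
    rw [he]
    have : 0 ≤ σ / k := by positivity
    linarith
  have haR : (1 : ℝ) ≤ a := by exact_mod_cast ha
  refine ⟨min c (1 / a), lt_min hc (by positivity), ?_⟩
  intro N hN
  have hNR : (1 : ℝ) ≤ N := by exact_mod_cast hN
  by_cases hNa : N < a
  · have h1 : (N : ℝ) ^ e ≤ a := by
      calc (N : ℝ) ^ e ≤ (N : ℝ) ^ (1 : ℝ) := Real.rpow_le_rpow_of_exponent_le hNR he1
        _ = N := Real.rpow_one _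
        _ ≤ a := by exact_mod_cast hNa.le
    calc min c (1 / a) * (N : ℝ) ^ e ≤ (1 / a) * (N : ℝ) ^ e :=
          mul_le_mul_of_nonneg_right (min_le_right _ _) (by positivity)
      _ ≤ (1 / a) * a := mul_le_mul_of_nonneg_left h1 (by positivity)
      _ = 1 := by rw [one_div, inv_mul_cancel₀ (by positivity)]
      _ ≤ _ := by exact_mod_cast one_le_rMax _ hN
  · have hNa' : a ≤ N := Nat.le_of_not_lt hNa
    -- choose v
    have hbk : 1 < b ^ k := Nat.one_lt_pow (by omega) hb2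
    set v : ℕ := Nat.log (b ^ k) (N / a) with hv
    have hNa0 : N / a ≠ 0 := (Nat.div_pos hNa' ha).ne'
    have hv1 : a * (b ^ v) ^ k ≤ N := by
      have h1 := Nat.pow_log_le_self (b ^ k) hNa0
      calc a * (b ^ v) ^ k = a * (b ^ k) ^ v := by rw [← pow_mul, ← pow_mul, mul_comm v k]
        _ ≤ a * (N / a) := Nat.mul_le_mul_left _ h1
        _ ≤ N := Nat.mul_div_le N a
    have hv2 : N ≤ a * b ^ k * (b ^ v) ^ k := by
      have h1 := Nat.lt_pow_succ_log_self hbk (N / a)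
      have h2 : N < a * (N / a + 1) := Nat.lt_mul_div_succ N ha
      calc N ≤ a * (N / a + 1) := h2.le
        _ ≤ a * (b ^ k) ^ (v + 1) := Nat.mul_le_mul_left _ h1
        _ = a * b ^ k * (b ^ v) ^ k := by
            rw [← pow_mul, ← pow_mul, mul_assoc, ← pow_add]
            congr 2
            ring
    have hbv : 0 < b ^ v := pow_pos hb0 v
    have hpf : ∀ v : ℕ, (b ^ v).primeFactors ⊆ b.primeFactors := by
      intro v p hp
      rw [Nat.mem_primeFactors] at hp ⊢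
      exact ⟨hp.1, hp.1.dvd_of_dvd_pow hp.2.1, hb0.ne'⟩
    have h3 := hmain (b ^ v) ((s * b ^ (m - 1)) ^ v) N hbv
      (hpf v)
      (fun φ hφ => by
        push_cast
        exact (hcop φ hφ).pow_right) (IndF.pow (by omega) hb0 hcop hfree v)
      (le_trans (Nat.mul_le_mul_left _ (Nat.pow_le_pow_right hbv hmk)) hv1) hv2
    refine le_trans ?_ h3
    have hbvR : (0 : ℝ) < (b : ℝ) ^ v := by positivity
    have hq1 : (1 : ℝ) ≤ (b : ℝ) ^ v := one_le_pow₀ (by exact_mod_cast hb0)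
    -- the ratio
    have hratio : (((s * b ^ (m - 1)) ^ v : ℕ) : ℝ) / (((b ^ v : ℕ) : ℝ)) ^ m =
        ((b : ℝ) ^ v) ^ (-σ) := by
      have hbR : (0 : ℝ) < b := by exact_mod_cast hb0
      have hsR : (0 : ℝ) < s := by exact_mod_cast hs1
      have h4 : ((b : ℝ) ^ m) = b * (b : ℝ) ^ (m - 1) := by
        rw [← pow_succ']
        congr 1
        omega
      have h5 : (((s * b ^ (m - 1)) ^ v : ℕ) : ℝ) / (((b ^ v : ℕ) : ℝ)) ^ m =
          ((s : ℝ) / b) ^ v := by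
        push_cast
        rw [← pow_mul, mul_comm v m, pow_mul, ← div_pow, h4]
        congr 1
        have : ((b : ℝ) ^ (m - 1)) ≠ 0 := by positivity
        field_simp
      have h6 : (s : ℝ) / b = (b : ℝ) ^ (-σ) := by
        rw [Real.rpow_def_of_pos hbR, hσ]
        have : Real.log b * -(1 - Real.log s / Real.log b) = Real.log s - Real.log b := by
          field_simp
          ring
        rw [this, Real.exp_sub, Real.exp_log hsR, Real.exp_log hbR]
      rw [h5, h6, ← Real.rpow_natCast, ← Real.rpow_natCast, ← Real.rpow_mul hbR.le,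
        ← Real.rpow_mul hbR.le, mul_comm]
    have h7 : (b : ℝ) ^ v ≤ (N : ℝ) ^ (1 / (k : ℝ)) := by
      have h8 : ((b : ℝ) ^ v) ^ k ≤ N := by
        have h9 : (b ^ v) ^ k ≤ N := by
          calc (b ^ v) ^ k ≤ a * (b ^ v) ^ k := Nat.le_mul_of_pos_left _ ha
            _ ≤ N := hv1
        exact_mod_cast h9
      calc (b : ℝ) ^ v = (((b : ℝ) ^ v) ^ k) ^ (1 / (k : ℝ)) := by
            rw [← Real.rpow_natCast ((b : ℝ) ^ v) k, ← Real.rpow_mul hbvR.le,
              mul_one_div_cancel (by positivity), Real.rpow_one]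
        _ ≤ (N : ℝ) ^ (1 / (k : ℝ)) := Real.rpow_le_rpow (by positivity) h8 (by positivity)
    have h8 : (N : ℝ) ^ (-(σ / k)) ≤ ((b : ℝ) ^ v) ^ (-σ) := by
      have h9 : (N : ℝ) ^ (-(σ / k)) = ((N : ℝ) ^ (1 / (k : ℝ))) ^ (-σ) := by
        rw [← Real.rpow_mul (by positivity)]
        congr 1
        ring
      rw [h9]
      exact Real.rpow_le_rpow_of_nonpos hbvR h7 (by linarith)
    calc min c (1 / a) * (N : ℝ) ^ e ≤ c * (N : ℝ) ^ e :=
          mul_le_mul_of_nonneg_right (min_le_left _ _) (by positivity)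
      _ = c * N * (N : ℝ) ^ (-(σ / k)) := by
          rw [he, sub_eq_add_neg, Real.rpow_add (by positivity), Real.rpow_one]
          ring
      _ ≤ c * N * ((b : ℝ) ^ v) ^ (-σ) := mul_le_mul_of_nonneg_left h8 (by positivity)
      _ = _ := by rw [← hratio, mul_div_assoc]

end Vale.Agent.P042.LB
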