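import Vale.Agent.P042.LB.H522.Basic

set_option autoImplicit false

/-!
P042, lower bounds for all `h`: the local weights.
-/

namespace Vale.Agent.P042.LB

open Polynomial

/-- a probability weight modulo `p` with few differences in the values of `h` -/
def LocW (h : ℤ[X]) (p : ℕ) (δ : ℝ) : Prop :=
  ∃ w : ℤ → ℝ, (∀ z, 0 ≤ w z) ∧ (∀ z, w z ≤ 1 / 2) ∧ (∀ z, w (z + p) = w z) ∧
    ∑ z ∈ Finset.range p, w z = 1 ∧
    ∑ n ∈ Finset.range p, ∑ z ∈ Finset.range p, w z * w (z + h.eval (n : ℤ)) ≤ 1 - δ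

end Vale.Agent.P042.LB
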