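import Vale.Agent.P042.LB.H522.Loc
import Mathlib.FieldTheory.Finite.Basic

set_option autoImplicit false

/-!
P042, lower bounds for all `h`: the values of a polynomial modulo `p` (moments).
-/

namespace Vale.Agent.P042.LB

open Polynomial Finset

section moments

variable {p : ℕ} [Fact p.Prime]

/-- number of solutions of `f = t` -/
noncomputable def rh (f : (ZMod p)[X]) (t : ZMod p) : ℕ :=
  by classical exact (univ.filter (fun x : ZMod p => f.eval x = t)).card

/-- symmetrised deviation from uniform distribution -/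
noncomputable def Fd (f : (ZMod p)[X]) (t : ZMod p) : ℤ := rh f t + rh f (-t) - 2

theorem Fd_neg (f : (ZMod p)[X]) (t : ZMod p) : Fd f (-t) = Fd f t := by
  rw [Fd, Fd, neg_neg]
  ring

theorem sum_rh {M : Type*} [AddCommMonoid M] (f : (ZMod p)[X]) (G : ZMod p → M) :
    ∑ t, rh f t • G t = ∑ x, G (f.eval x) := by
  classical
  rw [← sum_fiberwise univ (fun x : ZMod p => f.eval x) (fun x => G (f.eval x))]
  refine sum_congr rfl fun t _ => ?_
  have h1 : ∑ x ∈ univ.filter (fun x : ZMod p => f.eval x = t), G (f.eval x) =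
      ∑ x ∈ univ.filter (fun x : ZMod p => f.eval x = t), G t := by
    refine sum_congr rfl fun x hx => ?_
    rw [(mem_filter.1 hx).2]
  rw [h1, sum_const, rh]

theorem rh_le (f : (ZMod p)[X]) (hf : 1 ≤ f.natDegree) (t : ZMod p) : rh f t ≤ f.natDegree := by
  classical
  have h0 : f - C t ≠ 0 := by
    intro h
    have h1 : f = C t := sub_eq_zero.1 h
    rw [h1, natDegree_C] at hf
    omega
  have hdeg : (f - C t).natDegree ≤ f.natDegree := by
    rw [natDegree_sub_C]
  calc rh f t ≤ (f - C t).roots.toFinset.card := by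
        rw [rh]
        apply card_le_card
        intro x hx
        rw [Multiset.mem_toFinset, mem_roots h0, IsRoot.def, eval_sub, eval_C,
          (mem_filter.1 hx).2, sub_self]
    _ ≤ (f - C t).roots.card := Multiset.toFinset_card_le _
    _ ≤ (f - C t).natDegree := card_roots' _
    _ ≤ f.natDegree := hdeg

/-- sum of a polynomial of degree at most `p - 1` over the field -/
theorem sum_eval (g : (ZMod p)[X]) (hg : g.natDegree ≤ p - 1) :
    ∑ x : ZMod p, g.eval x = - g.coeff (p - 1) := by
  classical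
  have hp1 : 0 < p - 1 := by
    have := (Fact.out : p.Prime).two_le
    omega
  have h1 : ∀ x : ZMod p, g.eval x = ∑ i ∈ range (p - 1 + 1), g.coeff i * x ^ i := fun x =>
    eval_eq_sum_range' (by omega) x
  calc ∑ x : ZMod p, g.eval x = ∑ x : ZMod p, ∑ i ∈ range (p - 1 + 1), g.coeff i * x ^ i :=
        sum_congr rfl fun x _ => h1 x
    _ = ∑ i ∈ range (p - 1 + 1), g.coeff i * ∑ x : ZMod p, x ^ i := by
        rw [sum_comm]
        exact sum_congr rfl fun i _ => (mul_sum _ _ _).symm
    _ = g.coeff (p - 1) * ∑ x : ZMod p, x ^ (p - 1) := by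
        rw [sum_range_succ, add_eq_right]
        refine sum_eq_zero fun i hi => ?_
        rw [FiniteField.sum_pow_lt_card_sub_one (ZMod p) i (by rw [ZMod.card]; exact mem_range.1 hi),
          mul_zero]
    _ = - g.coeff (p - 1) := by
        have h2 : ∑ x : ZMod p, x ^ (p - 1) = -1 := by
          have h3 : ∀ x : ZMod p, x ^ (p - 1) = 1 - (if x = 0 then 1 else 0) := by
            intro x
            split_ifs with h
            · rw [h, zero_pow hp1.ne', sub_self]
            · rw [ZMod.pow_card_sub_one_eq_one h, sub_zero]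
          rw [sum_congr rfl fun x _ => h3 x, sum_sub_distrib, sum_const, card_univ, ZMod.card,
            sum_ite_eq' univ (0 : ZMod p)]
          simp
        rw [h2]
        ring

theorem sum_eval_zero (g : (ZMod p)[X]) (hg : g.natDegree < p - 1) :
    ∑ x : ZMod p, g.eval x = 0 := by
  rw [sum_eval g hg.le, coeff_eq_zero_of_natDegree_lt hg, neg_zero]

/-- moments of `F` against even polynomials -/
theorem sum_Fd (f P : (ZMod p)[X]) (hP : ∀ t : ZMod p, P.eval (-t) = P.eval t) :
    ∑ t, (Fd f t : ZMod p) * P.eval t =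
      2 * ∑ x, (P.comp f).eval x - 2 * ∑ t, P.eval t := by
  have h1 : ∑ t, (rh f t : ZMod p) * P.eval t = ∑ x, (P.comp f).eval x := by
    have := sum_rh f (fun t => P.eval t)
    simp only [nsmul_eq_mul] at this
    rw [this]
    exact sum_congr rfl fun x _ => by rw [eval_comp]
  have h2 : ∑ t, (rh f (-t) : ZMod p) * P.eval t = ∑ x, (P.comp f).eval x := by
    rw [← h1]
    refine Fintype.sum_equiv (Equiv.neg (ZMod p)) _ _ fun t => ?_
    simp only [Equiv.neg_apply]
    rw [hP]
  have h3 : ∀ t, (Fd f t : ZMod p) * P.eval t =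
      (rh f t : ZMod p) * P.eval t + (rh f (-t) : ZMod p) * P.eval t - 2 * P.eval t := by
    intro t
    rw [Fd]
    push_cast
    ring
  rw [sum_congr rfl fun t _ => h3 t, sum_sub_distrib, sum_add_distrib, h1, h2,
    mul_sum univ (fun t => P.eval t) 2]
  ring

theorem Fd_bound (f : (ZMod p)[X]) (hf : 1 ≤ f.natDegree) (t : ZMod p) :
    -2 ≤ Fd f t ∧ Fd f t ≤ 2 * f.natDegree - 2 := by
  have h1 := rh_le f hf t
  have h2 := rh_le f hf (-t)
  rw [Fd]
  constructor <;> push_cast <;> omega

/-- `F ≠ 0` modulo `p` -/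
theorem Fd_cast_ne (f : (ZMod p)[X]) (hf : 1 ≤ f.natDegree) (hp : 2 * f.natDegree < p)
    (hp2 : 2 < p) (t : ZMod p) (ht : Fd f t ≠ 0) : (Fd f t : ZMod p) ≠ 0 := by
  intro h
  rw [ZMod.intCast_zmod_eq_zero_iff_dvd] at h
  obtain ⟨h1, h2⟩ := Fd_bound f hf t
  apply ht
  apply Int.eq_zero_of_abs_lt_dvd h
  rw [abs_lt]
  constructor <;> omega

/-- if `2 k ∣ p - 1` then `F` does not vanish identically -/
theorem exists_Fd_ne (f : (ZMod p)[X]) (hf : 2 ≤ f.natDegree) (hp : 2 < p)
    (hpk : 2 * f.natDegree ∣ p - 1) : ∃ t, Fd f t ≠ 0 := by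
  by_contra hcon
  push Not at hcon
  obtain ⟨e, he⟩ := hpk
  have he0 : 0 < e := by
    rcases Nat.eq_zero_or_pos e with h | h
    · rw [h, mul_zero] at he; omega
    · exact h
  have h1 := sum_Fd f (X ^ (2 * e)) (fun t => by
    rw [eval_pow, eval_pow, eval_X, eval_X, pow_mul, pow_mul, neg_sq])
  have h2 : ∑ t, (Fd f t : ZMod p) * (X ^ (2 * e) : (ZMod p)[X]).eval t = 0 := by
    refine sum_eq_zero fun t _ => ?_
    rw [hcon t]
    simp
  have h3 : ∑ t : ZMod p, (X ^ (2 * e) : (ZMod p)[X]).eval t = 0 := by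
    apply sum_eval_zero
    rw [natDegree_X_pow, he]
    nlinarith
  have hf0 : f ≠ 0 := by
    rintro rfl
    simp at hf
  have h4 : ((X ^ (2 * e) : (ZMod p)[X]).comp f) = f ^ (2 * e) := by
    rw [X_pow_comp]
  have hdeg : (f ^ (2 * e)).natDegree = p - 1 := by
    rw [natDegree_pow, he]
    ring
  have h5 : ∑ x, ((X ^ (2 * e) : (ZMod p)[X]).comp f).eval x = - f.leadingCoeff ^ (2 * e) := by
    rw [h4, sum_eval _ hdeg.le, ← hdeg]
    rw [← leadingCoeff, leadingCoeff_pow]
  rw [h2, h3, h5] at h1
  have h6 : (2 : ZMod p) ≠ 0 := by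
    intro h
    have h7 : ((2 : ℕ) : ZMod p) = 0 := by exact_mod_cast h
    rw [ZMod.natCast_eq_zero_iff] at h7
    have := Nat.le_of_dvd (by norm_num) h7
    omega
  have h7 : f.leadingCoeff ^ (2 * e) ≠ 0 := pow_ne_zero _ (leadingCoeff_ne_zero.2 hf0)
  have h8 : (2 : ZMod p) * f.leadingCoeff ^ (2 * e) = 0 := by linear_combination h1
  rcases mul_eq_zero.1 h8 with h | h
  · exact h6 h
  · exact h7 h

open Classical in
/-- the support of `F` is large as soon as it is not empty -/
theorem supp_Fd (f : (ZMod p)[X]) (hf : 1 ≤ f.natDegree) (hp : 2 * f.natDegree < p)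
    (hp2 : 2 < p) (t0 : ZMod p) (ht0 : Fd f t0 ≠ 0) :
    p - 1 ≤ 2 * f.natDegree * ((univ.filter (fun t : ZMod p => Fd f t ≠ 0)).card - 1) := by
  by_contra hcon
  push Not at hcon
  set B := univ.filter (fun t : ZMod p => Fd f t ≠ 0) with hB
  set S := (B.erase t0).erase (-t0) with hS
  have ht0B : t0 ∈ B := by rw [hB, mem_filter]; exact ⟨mem_univ _, ht0⟩
  have hScard : S.card ≤ B.card - 1 := by
    calc S.card ≤ (B.erase t0).card := card_le_card (erase_subset _ _)
      _ = B.card - 1 := card_erase_of_mem ht0B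
  set P : (ZMod p)[X] := ∏ t ∈ S, (X ^ 2 - C (t ^ 2)) with hPdef
  have hPeven : ∀ t : ZMod p, P.eval (-t) = P.eval t := by
    intro t
    rw [hPdef, eval_prod, eval_prod]
    refine prod_congr rfl fun s _ => ?_
    simp
  have hPdeg : P.natDegree ≤ 2 * S.card := by
    calc P.natDegree ≤ ∑ t ∈ S, (X ^ 2 - C (t ^ 2) : (ZMod p)[X]).natDegree :=
          natDegree_prod_le _ _
      _ ≤ ∑ t ∈ S, 2 := by
          refine sum_le_sum fun t _ => ?_
          rw [natDegree_sub_C, natDegree_X_pow]
      _ = 2 * S.card := by rw [sum_const, smul_eq_mul, mul_comm]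
  have hcomp : (P.comp f).natDegree < p - 1 := by
    rw [natDegree_comp]
    calc P.natDegree * f.natDegree ≤ (2 * (B.card - 1)) * f.natDegree :=
          Nat.mul_le_mul_right _ (hPdeg.trans (Nat.mul_le_mul_left _ hScard))
      _ = 2 * f.natDegree * (B.card - 1) := by ring
      _ < p - 1 := hcon
  have hPlt : P.natDegree < p - 1 := by
    calc P.natDegree = P.natDegree * 1 := (mul_one _).symm
      _ ≤ P.natDegree * f.natDegree := Nat.mul_le_mul_left _ hf
      _ = (P.comp f).natDegree := (natDegree_comp).symm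
      _ < p - 1 := hcomp
  have h1 := sum_Fd f P hPeven
  rw [sum_eval_zero _ hcomp, sum_eval_zero _ hPlt, mul_zero, sub_zero] at h1
  have hP0 : P.eval t0 ≠ 0 := by
    rw [hPdef, eval_prod, prod_ne_zero_iff]
    intro s hs
    rw [eval_sub, eval_pow, eval_X, eval_C]
    intro h
    have h2 : (t0 - s) * (t0 + s) = 0 := by linear_combination h
    rw [hS, mem_erase, mem_erase] at hs
    rcases mul_eq_zero.1 h2 with h3 | h3
    · exact hs.2.1 (sub_eq_zero.1 h3).symm
    · apply hs.1
      linear_combination h3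
  have hvan : ∀ t : ZMod p, t ≠ t0 → t ≠ -t0 → (Fd f t : ZMod p) * P.eval t = 0 := by
    intro t h2 h3
    by_cases h4 : Fd f t = 0
    · rw [h4]; simp
    · have h5 : t ∈ S := by
        rw [hS, mem_erase, mem_erase, hB, mem_filter]
        exact ⟨h3, h2, mem_univ _, h4⟩
      have h6 : P.eval t = 0 := by
        rw [hPdef, eval_prod]
        apply prod_eq_zero h5
        simp
      rw [h6, mul_zero]
  have hF0 := Fd_cast_ne f hf hp hp2 t0 ht0
  have h6 : (2 : ZMod p) ≠ 0 := by
    intro h
    have h7 : ((2 : ℕ) : ZMod p) = 0 := by exact_mod_cast h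
    rw [ZMod.natCast_eq_zero_iff] at h7
    have := Nat.le_of_dvd (by norm_num) h7
    omega
  by_cases hneg : -t0 = t0
  · have h2 : ∑ t, (Fd f t : ZMod p) * P.eval t = (Fd f t0 : ZMod p) * P.eval t0 := by
      apply sum_eq_single t0
      · intro t _ ht
        exact hvan t ht (by rw [hneg]; exact ht)
      · intro h; exact absurd (mem_univ _) h
    rw [h2] at h1
    rcases mul_eq_zero.1 h1 with h | h
    · exact hF0 h
    · exact hP0 h
  · have h2 : ∑ t, (Fd f t : ZMod p) * P.eval t =
        (Fd f t0 : ZMod p) * P.eval t0 + (Fd f (-t0) : ZMod p) * P.eval (-t0) := by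
      rw [← sum_pair (f := fun t => (Fd f t : ZMod p) * P.eval t) (Ne.symm hneg)]
      symm
      apply sum_subset (subset_univ _)
      intro t _ ht
      rw [mem_insert, mem_singleton, not_or] at ht
      exact hvan t ht.1 ht.2
    rw [h2, Fd_neg, hPeven] at h1
    have h3 : (2 : ZMod p) * ((Fd f t0 : ZMod p) * P.eval t0) = 0 := by linear_combination h1
    rcases mul_eq_zero.1 h3 with h | h
    · exact h6 h
    · rcases mul_eq_zero.1 h with h | h
      · exact hF0 h
      · exact hP0 h

end moments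

end Vale.Agent.P042.LB
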