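import Vale.Agent.P042.LB.H522.Loc1
import Mathlib.Algebra.Polynomial.Taylor

set_option autoImplicit false

/-!
P042, lower bounds for all `h`: mean zero functions are almost uncorrelated along the values of a
polynomial modulo a large prime (differencing).
-/

namespace Vale.Agent.P042.LB

open Polynomial Finset

section corr

variable {p : ℕ} [Fact p.Prime]

/-- bilinear correlation along the values of `f` -/
noncomputable def Bil (f : (ZMod p)[X]) (u v : ZMod p → ℝ) : ℝ :=
  ∑ x, ∑ n, u x * v (x + f.eval n)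

theorem sum_shift (u : ZMod p → ℝ) (a : ZMod p) : ∑ x, u (x + a) = ∑ x, u x :=
  Fintype.sum_equiv (Equiv.addRight a) _ _ fun _ => rfl

/-- the difference polynomial -/
theorem diff_deg (f : (ZMod p)[X]) (j : ℕ) (hf : f.natDegree = j + 1) (hp : j + 1 < p)
    (d : ZMod p) (hd : d ≠ 0) :
    (taylor d f - f).natDegree = j := by
  have hc1 : (taylor d f).coeff (j + 1) = f.coeff (j + 1) := by
    rw [taylor_coeff]
    have h1 : (hasseDeriv (j + 1) f).natDegree ≤ 0 := by
      have := natDegree_hasseDeriv_le f (j + 1)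
      omega
    rw [eq_C_of_natDegree_le_zero h1, eval_C, hasseDeriv_coeff, zero_add, Nat.choose_self,
      Nat.cast_one, one_mul]
  have hc2 : (taylor d f).coeff j = f.coeff j + (j + 1) * f.coeff (j + 1) * d := by
    rw [taylor_coeff]
    have h1 : (hasseDeriv j f).natDegree ≤ 1 := by
      have := natDegree_hasseDeriv_le f j
      omega
    rw [eval_eq_sum_range' (n := 2) (by omega), sum_range_succ, sum_range_one, hasseDeriv_coeff,
      hasseDeriv_coeff, zero_add, Nat.choose_self, Nat.cast_one, one_mul, pow_zero, mul_one,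
      pow_one, add_comm 1 j, Nat.choose_succ_self_right]
    push_cast
    ring
  have hlc : f.coeff (j + 1) ≠ 0 := by
    rw [← hf]
    apply leadingCoeff_ne_zero.2
    rintro rfl
    simp at hf
  have hj : ((j : ZMod p) + 1) ≠ 0 := by
    intro h
    have h1 : ((j + 1 : ℕ) : ZMod p) = 0 := by exact_mod_cast h
    rw [ZMod.natCast_eq_zero_iff] at h1
    have := Nat.le_of_dvd (Nat.succ_pos _) h1
    omega
  apply le_antisymm
  · have h1 : (taylor d f - f).natDegree ≤ j + 1 := by
      refine (natDegree_sub_le _ _).trans ?_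
      rw [natDegree_taylor, hf, max_self]
    rcases Nat.lt_or_ge (taylor d f - f).natDegree (j + 1) with h | h
    · omega
    · exfalso
      have h2 : (taylor d f - f).natDegree = j + 1 := le_antisymm h1 h
      have h3 : (taylor d f - f).coeff (j + 1) = 0 := by rw [coeff_sub, hc1, sub_self]
      rw [← h2] at h3
      have h4 : taylor d f - f = 0 := leadingCoeff_eq_zero.1 h3
      rw [h4, natDegree_zero] at h2
      omega
  · apply le_natDegree_of_ne_zero
    rw [coeff_sub, hc2, add_sub_cancel_left]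
    exact mul_ne_zero (mul_ne_zero hj hlc) hd

/-- Cauchy-Schwarz and differencing -/
theorem bil_sq (f : (ZMod p)[X]) (u : ZMod p → ℝ) :
    (Bil f u u) ^ 2 ≤ (∑ x, u x ^ 2) * ∑ d, Bil (taylor d f - f) u u := by
  have h1 : Bil f u u = ∑ x, u x * ∑ n, u (x + f.eval n) := by
    rw [Bil]
    exact sum_congr rfl fun x _ => (mul_sum _ _ _).symm
  have h2 : ∑ x, (∑ n, u (x + f.eval n)) ^ 2 = ∑ d, Bil (taylor d f - f) u u := by
    have h3 : ∀ d n : ZMod p, ∑ x, u (x + f.eval n) * u (x + f.eval (n + d)) =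
        ∑ x, u x * u (x + (taylor d f - f).eval n) := by
      intro d n
      rw [← sum_shift (fun x => u x * u (x + (taylor d f - f).eval n)) (f.eval n)]
      refine sum_congr rfl fun x _ => ?_
      rw [eval_sub, taylor_eval]
      congr 2
      ring
    calc ∑ x, (∑ n, u (x + f.eval n)) ^ 2
        = ∑ x, ∑ n, ∑ m, u (x + f.eval n) * u (x + f.eval m) := by
          refine sum_congr rfl fun x _ => ?_
          rw [sq, sum_mul_sum]
      _ = ∑ x, ∑ n, ∑ d, u (x + f.eval n) * u (x + f.eval (n + d)) := by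
          refine sum_congr rfl fun x _ => sum_congr rfl fun n _ => ?_
          symm
          exact Fintype.sum_equiv (Equiv.addLeft n) _ _ fun _ => rfl
      _ = ∑ d, ∑ n, ∑ x, u (x + f.eval n) * u (x + f.eval (n + d)) := by
          rw [sum_comm]
          rw [sum_congr rfl fun n _ => sum_comm]
          rw [sum_comm]
      _ = ∑ d, Bil (taylor d f - f) u u := by
          refine sum_congr rfl fun d _ => ?_
          rw [Bil, sum_comm (s := univ (α := ZMod p)) (t := univ)
            (f := fun x n => u x * u (x + (taylor d f - f).eval n))]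
          exact sum_congr rfl fun n _ => h3 d n
  rw [h1, ← h2]
  exact sum_mul_sq_le_sq_mul_sq _ _ _

theorem bil_zero (u : ZMod p → ℝ) : Bil (0 : (ZMod p)[X]) u u = p * ∑ x, u x ^ 2 := by
  rw [Bil, mul_sum]
  refine sum_congr rfl fun x _ => ?_
  simp only [eval_zero, add_zero, sum_const, card_univ, ZMod.card, nsmul_eq_mul]
  ring

/-- degree one -/
theorem bil_one (f : (ZMod p)[X]) (hf : f.natDegree = 1) (u : ZMod p → ℝ) (hu : ∑ x, u x = 0) :
    Bil f u u = 0 := by
  rw [Bil]
  refine sum_eq_zero fun x _ => ?_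
  rw [← mul_sum]
  have h0 : f.coeff 1 ≠ 0 := by
    rw [← hf]
    apply leadingCoeff_ne_zero.2
    rintro rfl
    simp at hf
  have h1 : ∀ n, f.eval n = f.coeff 0 + f.coeff 1 * n := by
    intro n
    rw [eval_eq_sum_range' (n := 2) (by omega), sum_range_succ, sum_range_one]
    ring
  have h2 : ∑ n, u (x + f.eval n) = ∑ y, u y := by
    have h3 : ∑ n, u (x + f.eval n) = ∑ n, u ((x + f.coeff 0) + f.coeff 1 * n) :=
      sum_congr rfl fun n _ => by rw [h1, add_assoc]
    rw [h3]
    exact Fintype.sum_equiv ((Equiv.mulLeft₀ (f.coeff 1) h0).trans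
      (Equiv.addLeft (x + f.coeff 0))) _ _ fun _ => rfl
  rw [h2, hu, mul_zero]

end corr

/-- **Decorrelation.** -/
theorem bil_small (j : ℕ) (hj : 1 ≤ j) : ∀ ε : ℝ, 0 < ε → ∃ p0 : ℕ, ∀ (p : ℕ) [Fact p.Prime],
    p0 ≤ p → ∀ f : (ZMod p)[X], f.natDegree = j → ∀ u : ZMod p → ℝ, ∑ x, u x = 0 →
      |Bil f u u| ≤ ε * (p * ∑ x, u x ^ 2) := by
  induction j, hj using Nat.le_induction with
  | base =>
    intro ε hε
    refine ⟨0, fun p _ _ f hf u hu => ?_⟩
    rw [bil_one f hf u hu, abs_zero]
    have : 0 ≤ ∑ x, u x ^ 2 := sum_nonneg fun x _ => sq_nonneg _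
    positivity
  | succ j hj ih =>
    intro ε hε
    obtain ⟨p1, hp1⟩ := ih (ε ^ 2 / 2) (by positivity)
    refine ⟨max (max p1 (j + 2)) (⌈2 / ε ^ 2⌉₊ + 1), fun p _ hp f hf u hu => ?_⟩
    have hpp1 : p1 ≤ p := le_trans (le_trans (le_max_left _ _) (le_max_left _ _)) hp
    have hpj : j + 1 < p := lt_of_lt_of_le (Nat.lt_succ_self _)
      (le_trans (le_trans (le_max_right _ _) (le_max_left _ _)) hp)
    have hpe : 2 / ε ^ 2 ≤ p := by
      have h1 := Nat.le_ceil (2 / ε ^ 2)
      have h2 : ⌈2 / ε ^ 2⌉₊ + 1 ≤ p := le_trans (le_max_right _ _) hp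
      have h3 : ((⌈2 / ε ^ 2⌉₊ : ℝ)) + 1 ≤ p := by exact_mod_cast h2
      linarith
    have hp0 : (0 : ℝ) < p := by
      have : 0 < 2 / ε ^ 2 := by positivity
      linarith
    set S := ∑ x, u x ^ 2 with hS
    have hS0 : 0 ≤ S := sum_nonneg fun x _ => sq_nonneg _
    have h1 := bil_sq f u
    have h2 : ∑ d, Bil (taylor d f - f) u u ≤ p * S + p * (ε ^ 2 / 2 * (p * S)) := by
      have h3 : ∀ d : ZMod p, Bil (taylor d f - f) u u ≤
          (if d = 0 then p * S else 0) + ε ^ 2 / 2 * (p * S) := by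
        intro d
        by_cases hd : d = 0
        · rw [if_pos hd, hd, taylor_zero]
          rw [sub_self, bil_zero]
          have : 0 ≤ ε ^ 2 / 2 * (p * S) := by positivity
          linarith
        · rw [if_neg hd, zero_add]
          exact (le_abs_self _).trans (hp1 p hpp1 _ (diff_deg f j hf hpj d hd) u hu)
      calc ∑ d, Bil (taylor d f - f) u u
          ≤ ∑ d : ZMod p, ((if d = 0 then p * S else 0) + ε ^ 2 / 2 * (p * S)) :=
            sum_le_sum fun d _ => h3 d
        _ = _ := by
          rw [sum_add_distrib, sum_ite_eq' univ (0 : ZMod p), sum_const, card_univ, ZMod.card,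
            nsmul_eq_mul]
          simp
    have h4 : (Bil f u u) ^ 2 ≤ (ε * (p * S)) ^ 2 := by
      calc (Bil f u u) ^ 2 ≤ S * ∑ d, Bil (taylor d f - f) u u := h1
        _ ≤ S * (p * S + p * (ε ^ 2 / 2 * (p * S))) := mul_le_mul_of_nonneg_left h2 hS0
        _ = S ^ 2 * (p + ε ^ 2 / 2 * p ^ 2) := by ring
        _ ≤ S ^ 2 * (ε ^ 2 * p ^ 2) := by
            apply mul_le_mul_of_nonneg_left _ (sq_nonneg _)
            have h5 : (p : ℝ) ≤ ε ^ 2 / 2 * p ^ 2 := by
              rw [div_le_iff₀ (by positivity)] at hpe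
              nlinarith
            linarith
        _ = (ε * (p * S)) ^ 2 := by ring
    exact abs_le_of_sq_le_sq h4 (by positivity)

end Vale.Agent.P042.LB
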