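import Vale.Agent.P042.LB.H522.Loc2

set_option autoImplicit false

/-!
P042, lower bounds for all `h`: the local weight with few differences `h(n)`.
-/

namespace Vale.Agent.P042.LB

open Polynomial Finset

section weight

variable {p : ℕ} [Fact p.Prime]

theorem bil_expand (f : (ZMod p)[X]) (u : ZMod p → ℝ) (hu : ∑ x, u x = 0) :
    ∑ x, ∑ n, ((1 / (p : ℝ) + u x) * (1 / (p : ℝ) + u (x + f.eval n))) = 1 + Bil f u u := by
  have hp0 : (p : ℝ) ≠ 0 := by exact_mod_cast (Fact.out : p.Prime).ne_zero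
  have h1 : ∀ x n : ZMod p, (1 / (p : ℝ) + u x) * (1 / (p : ℝ) + u (x + f.eval n)) =
      1 / (p : ℝ) ^ 2 + (1 / (p : ℝ)) * u x + (1 / (p : ℝ)) * u (x + f.eval n) +
        u x * u (x + f.eval n) := by
    intro x n
    field_simp
    ring
  simp_rw [h1, sum_add_distrib]
  have h2 : ∑ x : ZMod p, ∑ n : ZMod p, 1 / (p : ℝ) ^ 2 = 1 := by
    simp only [sum_const, card_univ, ZMod.card, nsmul_eq_mul]
    field_simp
  have h3 : ∑ x : ZMod p, ∑ n : ZMod p, (1 / (p : ℝ)) * u x = 0 := by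
    rw [sum_comm]
    refine sum_eq_zero fun n _ => ?_
    rw [← mul_sum, hu, mul_zero]
  have h4 : ∑ x : ZMod p, ∑ n : ZMod p, (1 / (p : ℝ)) * u (x + f.eval n) = 0 := by
    rw [sum_comm]
    refine sum_eq_zero fun n _ => ?_
    rw [← mul_sum, sum_shift, hu, mul_zero]
  rw [h2, h3, h4, Bil]
  ring

/-- the atom at zero, centred -/
noncomputable def ua (p : ℕ) (x : ZMod p) : ℝ := (if x = 0 then 1 else 0) - 1 / (p : ℝ)

/-- the tilt -/
noncomputable def ub (f : (ZMod p)[X]) (x : ZMod p) : ℝ := (Fd f x : ℝ) / p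

theorem sum_ua : ∑ x : ZMod p, ua p x = 0 := by
  have hp0 : (p : ℝ) ≠ 0 := by exact_mod_cast (Fact.out : p.Prime).ne_zero
  simp only [ua, sum_sub_distrib, sum_ite_eq', mem_univ, if_true, sum_const, card_univ, ZMod.card,
    nsmul_eq_mul]
  field_simp
  ring

theorem sum_rh_real (f : (ZMod p)[X]) (G : ZMod p → ℝ) :
    ∑ t, (rh f t : ℝ) * G t = ∑ x, G (f.eval x) := by
  have := sum_rh f G
  simpa only [nsmul_eq_mul] using this

theorem sum_neg' (G : ZMod p → ℝ) : ∑ t, G (-t) = ∑ t, G t :=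
  Fintype.sum_equiv (Equiv.neg _) _ _ fun _ => rfl

theorem sum_Fd_real (f : (ZMod p)[X]) : ∑ t, (Fd f t : ℝ) = 0 := by
  have h1 : ∑ t, (rh f t : ℝ) = p := by
    have := sum_rh_real f (fun _ => 1)
    simpa [ZMod.card] using this
  have h2 : ∑ t, (rh f (-t) : ℝ) = p := by
    rw [sum_neg' (fun t => (rh f t : ℝ)), h1]
  simp only [Fd, Int.cast_sub, Int.cast_add, Int.cast_natCast, Int.cast_ofNat, sum_sub_distrib,
    sum_add_distrib, h1, h2, sum_const, card_univ, ZMod.card, nsmul_eq_mul]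
  ring

theorem sum_ub (f : (ZMod p)[X]) : ∑ x, ub f x = 0 := by
  simp only [ub]
  rw [← sum_div, sum_Fd_real, zero_div]

theorem bil_aa (f : (ZMod p)[X]) : Bil f (ua p) (ua p) = rh f 0 - 1 := by
  have hp0 : (p : ℝ) ≠ 0 := by exact_mod_cast (Fact.out : p.Prime).ne_zero
  have h1 : ∀ x n : ZMod p, ua p x * ua p (x + f.eval n) =
      (if x = 0 then ua p (x + f.eval n) else 0) - (1 / (p : ℝ)) * ua p (x + f.eval n) := by
    intro x n
    rw [ua]
    split_ifs <;> ring
  rw [Bil]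
  simp_rw [h1, sum_sub_distrib]
  have h2 : ∑ x : ZMod p, ∑ n : ZMod p, (1 / (p : ℝ)) * ua p (x + f.eval n) = 0 := by
    rw [sum_comm]
    refine sum_eq_zero fun n _ => ?_
    rw [← mul_sum, sum_shift, sum_ua, mul_zero]
  have h3 : ∑ x : ZMod p, ∑ n : ZMod p, (if x = 0 then ua p (x + f.eval n) else 0) =
      ∑ n : ZMod p, ua p (f.eval n) := by
    rw [sum_comm]
    refine sum_congr rfl fun n _ => ?_
    rw [sum_ite_eq' univ (0 : ZMod p)]
    simp
  rw [h2, h3, sub_zero, ← sum_rh_real f (ua p)]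
  have h4 : ∀ t : ZMod p, (rh f t : ℝ) * ua p t =
      (if t = 0 then (rh f t : ℝ) else 0) - (1 / (p : ℝ)) * rh f t := by
    intro t
    rw [ua]
    split_ifs <;> ring
  have h5 : ∑ t, (rh f t : ℝ) = p := by
    have := sum_rh_real f (fun _ => 1)
    simpa [ZMod.card] using this
  rw [sum_congr rfl fun t _ => h4 t, sum_sub_distrib, sum_ite_eq' univ (0 : ZMod p), ← mul_sum,
    h5]
  simp only [mem_univ, if_true]
  field_simp

theorem bil_cross (f : (ZMod p)[X]) :
    Bil f (ua p) (ub f) + Bil f (ub f) (ua p) = (∑ t, (Fd f t : ℝ) ^ 2) / p := by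
  have hp0 : (p : ℝ) ≠ 0 := by exact_mod_cast (Fact.out : p.Prime).ne_zero
  have hA : Bil f (ua p) (ub f) = ∑ t, (rh f t : ℝ) * ub f t := by
    have h1 : ∀ x n : ZMod p, ua p x * ub f (x + f.eval n) =
        (if x = 0 then ub f (x + f.eval n) else 0) - (1 / (p : ℝ)) * ub f (x + f.eval n) := by
      intro x n
      rw [ua]
      split_ifs <;> ring
    rw [Bil]
    simp_rw [h1, sum_sub_distrib]
    have h2 : ∑ x : ZMod p, ∑ n : ZMod p, (1 / (p : ℝ)) * ub f (x + f.eval n) = 0 := by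
      rw [sum_comm]
      refine sum_eq_zero fun n _ => ?_
      rw [← mul_sum, sum_shift, sum_ub, mul_zero]
    have h3 : ∑ x : ZMod p, ∑ n : ZMod p, (if x = 0 then ub f (x + f.eval n) else 0) =
        ∑ n : ZMod p, ub f (f.eval n) := by
      rw [sum_comm]
      refine sum_congr rfl fun n _ => ?_
      rw [sum_ite_eq' univ (0 : ZMod p)]
      simp
    rw [h2, h3, sub_zero, ← sum_rh_real f (ub f)]
  have hB : Bil f (ub f) (ua p) = ∑ t, (rh f t : ℝ) * ub f t := by
    have h1 : ∀ x n : ZMod p, ub f x * ua p (x + f.eval n) =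
        (if x = -f.eval n then ub f x else 0) - (1 / (p : ℝ)) * ub f x := by
      intro x n
      rw [ua]
      have h0 : (x + f.eval n = 0) = (x = -f.eval n) := by
        rw [add_eq_zero_iff_eq_neg]
      simp only [h0]
      split_ifs <;> ring
    rw [Bil]
    simp_rw [h1, sum_sub_distrib]
    have h2 : ∑ x : ZMod p, ∑ n : ZMod p, (1 / (p : ℝ)) * ub f x = 0 := by
      rw [sum_comm]
      refine sum_eq_zero fun n _ => ?_
      rw [← mul_sum, sum_ub, mul_zero]
    have h3 : ∑ x : ZMod p, ∑ n : ZMod p, (if x = -f.eval n then ub f x else 0) =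
        ∑ n : ZMod p, ub f (f.eval n) := by
      rw [sum_comm]
      refine sum_congr rfl fun n _ => ?_
      rw [sum_ite_eq' univ (-f.eval n)]
      simp only [mem_univ, if_true, ub, Fd_neg]
    rw [h2, h3, sub_zero, ← sum_rh_real f (ub f)]
  rw [hA, hB]
  have h1 : ∑ t, (rh f (-t) : ℝ) * ub f t = ∑ t, (rh f t : ℝ) * ub f t := by
    rw [← sum_neg' (fun t => (rh f t : ℝ) * ub f t)]
    refine sum_congr rfl fun t _ => ?_
    rw [ub, ub, Fd_neg]
  have h2 : ∑ t, (2 : ℝ) * ub f t = 0 := by rw [← mul_sum, sum_ub, mul_zero]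
  have h3 : (∑ t, (Fd f t : ℝ) ^ 2) / p = ∑ t, ((rh f t : ℝ) * ub f t + (rh f (-t) : ℝ) * ub f t -
      2 * ub f t) := by
    rw [sum_div]
    refine sum_congr rfl fun t _ => ?_
    rw [ub]
    have h4 : (Fd f t : ℝ) = (rh f t : ℝ) + rh f (-t) - 2 := by
      rw [Fd]; push_cast; ring
    rw [sq]
    nth_rewrite 1 [h4]
    field_simp
  rw [h3, sum_sub_distrib, sum_add_distrib, h1, h2, sub_zero]

theorem bil_comb (f : (ZMod p)[X]) (a b : ℝ) (u v : ZMod p → ℝ) :
    Bil f (fun x => a * u x - b * v x) (fun x => a * u x - b * v x) =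
      a ^ 2 * Bil f u u - a * b * (Bil f u v + Bil f v u) + b ^ 2 * Bil f v v := by
  simp only [Bil, mul_sum, ← sum_add_distrib, ← sum_sub_distrib]
  refine sum_congr rfl fun x _ => sum_congr rfl fun n _ => ?_
  ring

end weight

end Vale.Agent.P042.LB
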