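import Vale.Agent.P042.LB.H522.Fam
import Mathlib.NumberTheory.PrimesCongruentOne

set_option autoImplicit false

/-!
P042, lower bounds for `h = a g^m`: the exponent `1 - 1/k + δ`, `k = deg h`.
-/

namespace Vale.Agent.P042.LB

open Polynomial Finset

/-- a residue which is not an `m`-th power, and `-1` is one -/
theorem exists_nonpower (m p : ℕ) [Fact p.Prime] (hm : 2 ≤ m) (hp : 2 * m ∣ p - 1) :
    ∃ r : ZMod p, (∀ s : ZMod p, s ^ m ≠ r) ∧ ∀ s : ZMod p, -(s ^ m) ≠ r := by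
  have hp1 : 0 < p - 1 := by
    have := (Fact.out : p.Prime).two_le
    omega
  obtain ⟨ζ, hζ⟩ := IsCyclic.exists_generator (α := (ZMod p)ˣ)
  have hord : orderOf ζ = p - 1 := by
    rw [orderOf_eq_card_of_forall_mem_zpowers hζ, Nat.card_eq_fintype_card, ZMod.card_units]
  obtain ⟨t, ht⟩ := hp
  have ht0 : 0 < t := by
    rcases Nat.eq_zero_or_pos t with h | h
    · rw [h, mul_zero] at ht; omega
    · exact h
  -- the generator is not an m-th power
  have hno : ∀ s : ZMod p, s ^ m ≠ (ζ : ZMod p) := by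
    intro s hs
    have hs0 : s ≠ 0 := by
      rintro rfl
      rw [zero_pow (by omega)] at hs
      exact ζ.ne_zero hs.symm
    have h1 : (Units.mk0 s hs0) ^ m = ζ := by
      ext
      rw [Units.val_pow_eq_pow_val, Units.val_mk0, hs]
    have h2 : ζ ^ (2 * t) = 1 := by
      rw [← h1, ← pow_mul]
      have h3 : m * (2 * t) = p - 1 := by rw [ht]; ring
      rw [h3]
      exact ZMod.units_pow_card_sub_one_eq_one p _
    have h3 := orderOf_dvd_of_pow_eq_one h2
    rw [hord] at h3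
    have h4 := Nat.le_of_dvd (by omega) h3
    rw [ht] at h4
    nlinarith
  -- `-1` is an m-th power
  have hneg : ∃ z : ZMod p, z ^ m = -1 := by
    refine ⟨((ζ ^ t : (ZMod p)ˣ) : ZMod p), ?_⟩
    have h1 : (((ζ ^ t : (ZMod p)ˣ) : ZMod p) ^ m) ^ 2 = 1 := by
      have h2 : (((ζ ^ t) ^ m) ^ 2 : (ZMod p)ˣ) = 1 := by
        rw [← pow_mul, ← pow_mul]
        have h3 : t * (m * 2) = p - 1 := by rw [ht]; ring
        rw [h3]
        exact ZMod.units_pow_card_sub_one_eq_one p _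
      have h4 := congrArg (fun u : (ZMod p)ˣ => (u : ZMod p)) h2
      simpa using h4
    have h1' : (((ζ ^ t : (ZMod p)ˣ) : ZMod p) ^ m - 1) * (((ζ ^ t : (ZMod p)ˣ) : ZMod p) ^ m + 1) = 0 := by
      linear_combination h1
    rcases mul_eq_zero.1 h1' with h | h
    · exfalso
      have h2 : (ζ ^ (t * m) : (ZMod p)ˣ) = 1 := by
        ext
        rw [pow_mul]
        have h := sub_eq_zero.1 h
        simpa using h
      have h3 := orderOf_dvd_of_pow_eq_one h2
      rw [hord] at h3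
      have h4 := Nat.le_of_dvd (by positivity) h3
      rw [ht] at h4
      nlinarith [Nat.mul_pos ht0 (show 0 < m by omega)]
    · linear_combination h
  obtain ⟨z, hz⟩ := hneg
  refine ⟨(ζ : ZMod p), hno, fun s hs => hno (z * s) ?_⟩
  rw [mul_pow, hz, neg_one_mul, hs]

/-- **`h = a g^m`, `m ≥ 2`**: exponent `1 - 1/k + log 2 / (k log p)` for all primes
`p ≡ 1 mod 2 m`. -/
theorem lb_pow_prime (g : ℤ[X]) (hg : Squarefree (g.map (Int.castRingHom ℚ)))
    (hd : 1 ≤ g.natDegree) (a : ℕ) (ha : 0 < a) (m : ℕ) (hm : 2 ≤ m) (p : ℕ) (hp : p.Prime)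
    (hpm : 2 * m ∣ p - 1) :
    ∃ c : ℝ, 0 < c ∧ ∀ N : ℕ, 1 ≤ N →
      c * (N : ℝ) ^ (1 - (1 - Real.log 2 / Real.log p) / ((m * g.natDegree : ℕ) : ℝ)) ≤
        (rMax (C (a : ℤ) * g ^ m) N : ℝ) := by
  classical
  have : Fact p.Prime := ⟨hp⟩
  obtain ⟨r, hr1, hr2⟩ := exists_nonpower m p hm hpm
  have hr0 : r.val ≠ 0 := by
    intro h
    rw [ZMod.val_eq_zero] at h
    apply hr1 0
    rw [zero_pow (by omega), h]
  have hcard : ({0, r.val} : Finset ℕ).card = 2 := card_pair hr0.symm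
  have hdeg : (g ^ m * 1).natDegree = m * g.natDegree := by rw [mul_one, natDegree_pow]
  obtain ⟨c, hc, h⟩ := lb_fam g 1 hg hd one_ne_zero a ha m (by omega) p hp.two_le
    hp.prime.squarefree (fun n _ => by rw [eval_one]; exact isCoprime_one_left)
    {0, r.val} (fun x hx => by
      rw [mem_insert, mem_singleton] at hx
      rcases hx with rfl | rfl
      · exact hp.pos
      · exact ZMod.val_lt r) ⟨0, mem_insert_self _ _⟩ (by
      intro x hx y hy s n _ hdv
      rw [eval_one, one_mul] at hdv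
      have h0 := (ZMod.intCast_zmod_eq_zero_iff_dvd _ p).2 hdv
      push_cast at h0
      rw [mem_insert, mem_singleton] at hx hy
      rcases hx with rfl | rfl <;> rcases hy with rfl | rfl
      · rfl
      · exfalso
        rw [ZMod.natCast_zmod_val, Nat.cast_zero, sub_zero, sub_eq_zero] at h0
        exact hr1 _ h0.symm
      · exfalso
        rw [ZMod.natCast_zmod_val, Nat.cast_zero, zero_sub] at h0
        apply hr2 (s : ZMod p)
        linear_combination h0
      · rfl)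
  refine ⟨c, hc, fun N hN => ?_⟩
  have h1 := h N hN
  rw [hcard, hdeg, mul_one] at h1
  exact_mod_cast h1

/-- **`h = a g^m`, `m ≥ 2`**: a power more than the greedy bound. -/
theorem lb_pow (g : ℤ[X]) (hg : Squarefree (g.map (Int.castRingHom ℚ)))
    (hd : 1 ≤ g.natDegree) (a : ℕ) (ha : 0 < a) (m : ℕ) (hm : 2 ≤ m) :
    ∃ δ c : ℝ, 0 < δ ∧ 0 < c ∧ ∀ N : ℕ, 1 ≤ N →
      c * (N : ℝ) ^ (1 - 1 / ((m * g.natDegree : ℕ) : ℝ) + δ) ≤
        (rMax (C (a : ℤ) * g ^ m) N : ℝ) := by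
  obtain ⟨p, hp, hp2, hpm⟩ := Nat.exists_prime_gt_modEq_one (k := 2 * m) 2 (by omega)
  have hpm' : 2 * m ∣ p - 1 := (Nat.modEq_iff_dvd' hp.one_lt.le).1 hpm.symm
  obtain ⟨c, hc, h⟩ := lb_pow_prime g hg hd a ha m hm p hp hpm'
  have hk : 0 < m * g.natDegree := by positivity
  have hkR : (0 : ℝ) < ((m * g.natDegree : ℕ) : ℝ) := by exact_mod_cast hk
  have hlp : 0 < Real.log p := Real.log_pos (by exact_mod_cast hp.one_lt)
  refine ⟨Real.log 2 / Real.log p / ((m * g.natDegree : ℕ) : ℝ), c,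
    div_pos (div_pos (Real.log_pos (by norm_num)) hlp) hkR, hc, fun N hN => ?_⟩
  have e : 1 - 1 / ((m * g.natDegree : ℕ) : ℝ) +
      Real.log 2 / Real.log p / ((m * g.natDegree : ℕ) : ℝ) =
      1 - (1 - Real.log 2 / Real.log p) / ((m * g.natDegree : ℕ) : ℝ) := by ring
  rw [e]
  exact h N hN

end Vale.Agent.P042.LB
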