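import Mathlib.Algebra.BigOperators.Ring.Finset
import Mathlib.Algebra.Order.BigOperators.Group.Finset
import Mathlib.Data.Real.Basic
import Mathlib.Tactic.Linarith
import Mathlib.Tactic.Positivity
import Mathlib.Tactic.Ring

set_option autoImplicit false

/-!
P042, lower bounds for all `h`: rounding of a multi-affine function and deletion of edges.
-/

namespace Vale.Agent.P042.LB

open Finset

variable {V : Type*} [DecidableEq V]

/-- the functional -/
noncomputable def Phi (A : Finset V) (E : Finset (V × V)) (W : V → ℝ) : ℝ :=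
  ∑ v ∈ A, W v - ∑ e ∈ E, W e.1 * W e.2

/-- changing one coordinate: the functional is affine in it -/
theorem Phi_affine (A : Finset V) (E : Finset (V × V)) (hE : ∀ e ∈ E, e.1 ≠ e.2) (W : V → ℝ)
    (v : V) : ∃ a b : ℝ, ∀ t : ℝ, Phi A E (Function.update W v t) = a + b * t := by
  classical
  -- vertex part
  have h1 : ∃ a b : ℝ, ∀ t : ℝ, ∑ x ∈ A, Function.update W v t x = a + b * t := by
    refine ⟨∑ x ∈ A, (if x = v then 0 else W x), ∑ x ∈ A, (if x = v then 1 else 0), fun t => ?_⟩
    rw [sum_mul, ← sum_add_distrib]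
    refine sum_congr rfl fun x _ => ?_
    by_cases hx : x = v
    · subst hx; simp
    · rw [Function.update_of_ne hx]; simp [hx]
  have h2 : ∃ a b : ℝ, ∀ t : ℝ,
      ∑ e ∈ E, Function.update W v t e.1 * Function.update W v t e.2 = a + b * t := by
    refine ⟨∑ e ∈ E, (if e.1 = v ∨ e.2 = v then 0 else W e.1 * W e.2),
      ∑ e ∈ E, (if e.1 = v then W e.2 else if e.2 = v then W e.1 else 0), fun t => ?_⟩
    rw [sum_mul, ← sum_add_distrib]
    refine sum_congr rfl fun e he => ?_
    have hne := hE e he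
    by_cases h1 : e.1 = v
    · have h2 : e.2 ≠ v := fun h2 => hne (h1.trans h2.symm)
      rw [h1, Function.update_self, Function.update_of_ne h2]
      simp
      ring
    · by_cases h2 : e.2 = v
      · rw [h2, Function.update_self, Function.update_of_ne h1]
        simp [h1]
      · rw [Function.update_of_ne h1, Function.update_of_ne h2]
        simp [h1, h2]
  obtain ⟨a1, b1, h1⟩ := h1
  obtain ⟨a2, b2, h2⟩ := h2
  refine ⟨a1 - a2, b1 - b2, fun t => ?_⟩
  rw [Phi, h1, h2]
  ring

/-- rounding -/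
theorem round_all (A : Finset V) (E : Finset (V × V)) (hE : ∀ e ∈ E, e.1 ≠ e.2) (B : Finset V) :
    ∀ W : V → ℝ, (∀ v, 0 ≤ W v) → (∀ v, W v ≤ 1) →
      ∃ W' : V → ℝ, (∀ v, 0 ≤ W' v) ∧ (∀ v, W' v ≤ 1) ∧ (∀ v ∈ B, W' v = 0 ∨ W' v = 1) ∧
        (∀ v, v ∉ B → W' v = W v) ∧ Phi A E W ≤ Phi A E W' := by
  classical
  induction B using Finset.induction_on with
  | empty =>
    intro W h0 h1
    exact ⟨W, h0, h1, by simp, fun _ _ => rfl, le_refl _⟩
  | insert v B hv ih =>
    intro W h0 h1
    obtain ⟨W1, ha, hb, hc, hd, he⟩ := ih W h0 h1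
    obtain ⟨a, b, hab⟩ := Phi_affine A E hE W1 v
    have hself : Phi A E W1 = a + b * W1 v := by
      rw [← hab, Function.update_eq_self]
    have key : ∃ t : ℝ, (t = 0 ∨ t = 1) ∧ a + b * W1 v ≤ a + b * t := by
      by_cases hb0 : 0 ≤ b
      · refine ⟨1, Or.inr rfl, ?_⟩
        have := hb v
        nlinarith
      · refine ⟨0, Or.inl rfl, ?_⟩
        have := ha v
        push Not at hb0
        nlinarith
    obtain ⟨t, ht, hle⟩ := key
    refine ⟨Function.update W1 v t, ?_, ?_, ?_, ?_, ?_⟩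
    · intro x
      by_cases hx : x = v
      · subst hx; rw [Function.update_self]; rcases ht with rfl | rfl <;> norm_num
      · rw [Function.update_of_ne hx]; exact ha x
    · intro x
      by_cases hx : x = v
      · subst hx; rw [Function.update_self]; rcases ht with rfl | rfl <;> norm_num
      · rw [Function.update_of_ne hx]; exact hb x
    · intro x hx
      by_cases hxv : x = v
      · subst hxv; rw [Function.update_self]; exact ht
      · rw [Function.update_of_ne hxv]
        exact hc x ((mem_insert.1 hx).resolve_left hxv)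
    · intro x hx
      rw [mem_insert, not_or] at hx
      rw [Function.update_of_ne hx.1]
      exact hd x hx.2
    · rw [hab]
      linarith

/-- **Rounding and deletion.** -/
theorem round_indep (A : Finset V) (E : Finset (V × V)) (hE : ∀ e ∈ E, e.1 ≠ e.2)
    (hEA : ∀ e ∈ E, e.1 ∈ A ∧ e.2 ∈ A) (W : V → ℝ) (h0 : ∀ v, 0 ≤ W v) (h1 : ∀ v, W v ≤ 1) :
    ∃ S : Finset V, S ⊆ A ∧ (∀ e ∈ E, e.1 ∈ S → e.2 ∉ S) ∧
      ∑ v ∈ A, W v - ∑ e ∈ E, W e.1 * W e.2 ≤ (S.card : ℝ) := by
  classical
  obtain ⟨W', ha, hb, hc, -, he⟩ := round_all A E hE A W h0 h1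
  set S0 : Finset V := A.filter (fun v => W' v = 1) with hS0
  set E0 : Finset (V × V) := E.filter (fun e => e.1 ∈ S0 ∧ e.2 ∈ S0) with hE0
  have hval : ∀ v ∈ A, W' v = if v ∈ S0 then 1 else 0 := by
    intro v hv
    rcases hc v hv with h | h
    · rw [if_neg, h]
      rw [hS0, mem_filter]
      rintro ⟨-, h2⟩
      rw [h] at h2
      norm_num at h2
    · rw [if_pos, h]
      rw [hS0, mem_filter]
      exact ⟨hv, h⟩
  have hs1 : ∑ v ∈ A, W' v = S0.card := by
    rw [sum_congr rfl hval, sum_ite_mem, inter_eq_right.2 (filter_subset _ _), sum_const,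
      nsmul_eq_mul, mul_one]
  have hs2 : ∑ e ∈ E, W' e.1 * W' e.2 = E0.card := by
    have h3 : ∀ e ∈ E, W' e.1 * W' e.2 = if e ∈ E0 then (1 : ℝ) else 0 := by
      intro e he
      rw [hval _ (hEA e he).1, hval _ (hEA e he).2]
      by_cases h4 : e.1 ∈ S0 <;> by_cases h5 : e.2 ∈ S0 <;> simp [hE0, h4, h5, he]
    rw [sum_congr rfl h3, sum_ite_mem, inter_eq_right.2 (filter_subset _ _), sum_const,
      nsmul_eq_mul, mul_one]
  refine ⟨S0 \ E0.image Prod.fst, (sdiff_subset).trans (filter_subset _ _), ?_, ?_⟩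
  · intro e heE h4 h5
    rw [mem_sdiff] at h4 h5
    apply h4.2
    rw [mem_image]
    exact ⟨e, by rw [hE0, mem_filter]; exact ⟨heE, h4.1, h5.1⟩, rfl⟩
  · have h4 : S0.card ≤ (S0 \ E0.image Prod.fst).card + E0.card := by
      have h5 := le_card_sdiff (E0.image Prod.fst) S0
      have h6 : (E0.image Prod.fst).card ≤ E0.card := card_image_le
      omega
    have h5 : (S0.card : ℝ) ≤ ((S0 \ E0.image Prod.fst).card : ℝ) + E0.card := by exact_mod_cast h4
    have h6 : ∑ v ∈ A, W v - ∑ e ∈ E, W e.1 * W e.2 ≤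
        ∑ v ∈ A, W' v - ∑ e ∈ E, W' e.1 * W' e.2 := he
    rw [hs1, hs2] at h6
    linarith

end Vale.Agent.P042.LB
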