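import Vale.Agent.P042.LB.H522.Basic

set_option autoImplicit false

/-!
P042, lower bounds for `h = a g^m f`: from independent systems modulo `q^m` to `r_h(N)`.
-/

namespace Vale.Agent.P042.LB

open Polynomial Finset Pointwise

/-- `n` residues modulo `q^m` without differences `φ s^m`, `φ ∈ Φ`. -/
def IndF (Φ : Set ℤ) (m q n : ℕ) : Prop :=
  ∃ X : Finset ℕ, X.card = n ∧ (∀ x ∈ X, x < q ^ m) ∧
    ∀ x ∈ X, ∀ y ∈ X, ∀ s : ℤ, ∀ φ ∈ Φ, ((q ^ m : ℕ) : ℤ) ∣ (y : ℤ) - x - φ * s ^ m → x = y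

/-- `n` residues modulo `q^m` without differences which are `m`-th powers. -/
def Ind (m q n : ℕ) : Prop :=
  ∃ X : Finset ℕ, X.card = n ∧ (∀ x ∈ X, x < q ^ m) ∧
    ∀ x ∈ X, ∀ y ∈ X, ∀ s : ℤ, ((q ^ m : ℕ) : ℤ) ∣ (y : ℤ) - x - s ^ m → x = y

theorem Ind.toF {m q n : ℕ} (h : Ind m q n) : IndF {1} m q n := by
  obtain ⟨X, hc, hl, hp⟩ := h
  refine ⟨X, hc, hl, ?_⟩
  intro x hx y hy s φ hφ hd
  rw [Set.mem_singleton_iff] at hφ
  rw [hφ, one_mul] at hd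
  exact hp x hx y hy s hd

theorem card_le_rMax' {h : ℤ[X]} {N : ℕ} {A : Finset ℤ}
    (hA : A ⊆ Finset.Icc 1 (N : ℤ)) (hd : DiffFree h A) : A.card ≤ rMax h N := by
  classical
  unfold rMax
  exact Finset.le_sup (f := Finset.card) (by simp only [Finset.mem_filter, Finset.mem_powerset, hA, hd, and_self])

theorem one_le_rMax (h : ℤ[X]) {N : ℕ} (hN : 1 ≤ N) : 1 ≤ rMax h N := by
  have h1 : ({1} : Finset ℤ) ⊆ Finset.Icc 1 (N : ℤ) := by
    intro x hx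
    rw [mem_singleton] at hx
    subst hx
    exact mem_Icc.2 ⟨le_refl _, by exact_mod_cast hN⟩
  have h2 : DiffFree h ({1} : Finset ℤ) := by
    rintro d ⟨hd, -⟩
    rw [Set.mem_sub] at hd
    obtain ⟨x, hx, y, hy, hxy⟩ := hd
    rw [coe_singleton, Set.mem_singleton_iff] at hx hy
    rw [← hxy, hx, hy]
    simp
  exact card_le_rMax' h1 h2

/-- the set of the transfer: all integers `1 + a z`, `z` in one of the classes `X` mod `Q` -/
theorem block_set (a Q J N n : ℕ) (ha : 0 < a) (hQ : 0 < Q) (hJN : a * Q * J ≤ N)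
    (X : Finset ℕ) (hXc : X.card = n) (hXl : ∀ x ∈ X, x < Q) :
    ∃ A : Finset ℤ, A.card = n * J ∧ A ⊆ Finset.Icc 1 (N : ℤ) ∧
      ∀ z ∈ A, ∃ x ∈ X, ∃ j : ℤ, z = 1 + a * (x + Q * j) := by
  classical
  let F : ℕ × ℕ → ℤ := fun p => 1 + (a : ℤ) * ((p.1 : ℤ) + (Q : ℤ) * (p.2 : ℤ))
  have hFinj : Set.InjOn F (X ×ˢ range J : Finset (ℕ × ℕ)) := by
    rintro ⟨x, i⟩ h1 ⟨y, j⟩ h2 hxy
    simp only [coe_product, Set.mem_prod, mem_coe, mem_range] at h1 h2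
    simp only [F] at hxy
    have h3 : (x : ℤ) + (Q : ℤ) * (i : ℤ) = (y : ℤ) + (Q : ℤ) * (j : ℤ) := by
      have ha' : (a : ℤ) ≠ 0 := by exact_mod_cast ha.ne'
      exact mul_left_cancel₀ ha' (by linarith)
    have h4 : x + Q * i = y + Q * j := by exact_mod_cast h3
    have h5 : x = y := by
      have := congrArg (· % Q) h4
      simpa [Nat.mod_eq_of_lt (hXl x h1.1), Nat.mod_eq_of_lt (hXl y h2.1)] using this
    subst h5
    have h6 : Q * i = Q * j := by omega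
    rw [Nat.eq_of_mul_eq_mul_left hQ h6]
  refine ⟨(X ×ˢ range J).image F, ?_, ?_, ?_⟩
  · rw [card_image_of_injOn hFinj, card_product, hXc, card_range]
  · intro z hz
    simp only [mem_image, mem_product, Prod.exists, mem_range] at hz
    obtain ⟨x, j, ⟨hx, hj⟩, rfl⟩ := hz
    have h1 := hXl x hx
    have h2 : 1 + a * (x + Q * j) ≤ N := by
      have h3 : x + Q * j + 1 ≤ Q * J := by
        calc x + Q * j + 1 ≤ Q * (j + 1) := by rw [mul_add, mul_one]; omega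
          _ ≤ Q * J := Nat.mul_le_mul_left _ hj
      calc 1 + a * (x + Q * j) ≤ a * (x + Q * j + 1) := by
            rw [mul_add a (x + Q * j) 1]; omega
        _ ≤ a * (Q * J) := Nat.mul_le_mul_left _ h3
        _ = a * Q * J := by ring
        _ ≤ N := hJN
    rw [mem_Icc]
    constructor
    · simp only [F]
      have : (0 : ℤ) ≤ (a : ℤ) * ((x : ℤ) + (Q : ℤ) * (j : ℤ)) := by positivity
      linarith
    · simp only [F]
      exact_mod_cast h2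
  · intro z hz
    simp only [mem_image, mem_product, Prod.exists, mem_range] at hz
    obtain ⟨x, j, ⟨hx, hj⟩, rfl⟩ := hz
    exact ⟨x, hx, (j : ℤ), rfl⟩

/-- arguments `n'` with `|h(n')| ≤ N` are small -/
theorem small_arg (P : ℤ[X]) (K n0 : ℕ) (hk : 1 ≤ P.natDegree)
    (hsm : ∀ n : ℕ, n0 ≤ n → (n : ℤ) ^ P.natDegree ≤ K * |P.eval (n : ℤ)|)
    (q N B n' : ℕ) (hq : 0 < q) (hN2 : N ≤ B * q ^ P.natDegree) (hn0 : n0 ≤ n')
    (h2 : |P.eval (n' : ℤ)| ≤ N) : n' < (K * B + 1) * q := by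
  have h1 := hsm n' hn0
  have h3 : (n' : ℤ) ^ P.natDegree ≤ K * (N : ℤ) :=
    h1.trans (mul_le_mul_of_nonneg_left h2 (by positivity))
  have h4 : n' ^ P.natDegree ≤ K * N := by exact_mod_cast h3
  have h5 : n' ^ P.natDegree < ((K * B + 1) * q) ^ P.natDegree := by
    calc n' ^ P.natDegree ≤ K * N := h4
      _ ≤ K * (B * q ^ P.natDegree) := Nat.mul_le_mul_left _ hN2
      _ = (K * B) * q ^ P.natDegree := by ring
      _ < (K * B + 1) * q ^ P.natDegree :=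
          Nat.mul_lt_mul_of_pos_right (Nat.lt_succ_self _) (pow_pos hq _)
      _ ≤ (K * B + 1) ^ P.natDegree * q ^ P.natDegree :=
          Nat.mul_le_mul_right _ (Nat.le_self_pow (by omega) _)
      _ = ((K * B + 1) * q) ^ P.natDegree := by rw [mul_pow]
  exact lt_of_pow_lt_pow_left₀ _ (Nat.zero_le _) h5

/-- a difference which is a value of `h` at `n'` forces `q ∣ g(n')` -/
theorem diff_dvd (G φ a : ℤ) (y x : ℤ) (X : Finset ℕ) (Φ : Set ℤ) (m' q' : ℕ) (hm : m' ≠ 0)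
    (ha' : a ≠ 0) (hcop : IsCoprime φ (q' : ℤ)) (hφ : φ ∈ Φ)
    (hXp : ∀ x ∈ X, ∀ y ∈ X, ∀ s : ℤ, ∀ φ ∈ Φ,
      ((q' ^ m' : ℕ) : ℤ) ∣ (y : ℤ) - x - φ * s ^ m' → x = y)
    (hy : ∃ u ∈ X, ∃ j : ℤ, y = 1 + a * (u + (q' ^ m' : ℕ) * j))
    (hx : ∃ u ∈ X, ∃ j : ℤ, x = 1 + a * (u + (q' ^ m' : ℕ) * j))
    (hxy : y - x = a * (G ^ m' * φ)) : (q' : ℤ) ∣ G := by
  obtain ⟨y1, hy1, j1, rfl⟩ := hy
  obtain ⟨x1, hx1, i1, rfl⟩ := hx
  have hmain : ((y1 : ℤ) + (q' ^ m' : ℕ) * j1) - ((x1 : ℤ) + (q' ^ m' : ℕ) * i1) =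
      G ^ m' * φ := by
    apply mul_left_cancel₀ ha'
    rw [← hxy]
    ring
  have hdv : ((q' ^ m' : ℕ) : ℤ) ∣ (y1 : ℤ) - x1 - φ * G ^ m' := by
    refine ⟨i1 - j1, ?_⟩
    linear_combination hmain
  have hxy1 := hXp x1 hx1 y1 hy1 _ _ hφ hdv
  have h1 : ((q' : ℤ)) ^ m' ∣ φ * G ^ m' := by
    rw [hxy1, sub_self, zero_sub, dvd_neg] at hdv
    exact_mod_cast hdv
  have h2 : IsCoprime ((q' : ℤ) ^ m') φ := hcop.symm.pow_left
  have h3 := h2.dvd_of_dvd_mul_left h1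
  exact (Int.pow_dvd_pow_iff hm).1 h3

/-- **Transfer.** -/
theorem transferF (g f : ℤ[X]) (hg : Squarefree (g.map (Int.castRingHom ℚ))) (a : ℕ) (ha : 0 < a)
    (m : ℕ) (hm : 1 ≤ m) (hk : 1 ≤ (g ^ m * f).natDegree) (Φ : Set ℤ)
    (hΦ : ∀ n : ℕ, 1 ≤ n → f.eval (n : ℤ) ∈ Φ) (R B : ℕ) (hR : 0 < R) :
    ∃ c : ℝ, 0 < c ∧ ∀ q n N : ℕ, 0 < q → q.primeFactors ⊆ R.primeFactors →
      (∀ φ ∈ Φ, IsCoprime φ (q : ℤ)) → IndF Φ m q n → a * q ^ m ≤ N →
      N ≤ B * q ^ (g ^ m * f).natDegree →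
      c * (N : ℝ) * n / (q : ℝ) ^ m ≤ (rMax (C (a : ℤ) * (g ^ m * f)) N : ℝ) := by
  classical
  obtain ⟨C1, hC1⟩ := root_card g hg R hR
  obtain ⟨K, n0, hK, hsm⟩ := small_card (g ^ m * f) hk
  set T : ℕ := 2 * (n0 + C1 * (K * B + 1)) + 1 with hT
  have hTR : (0 : ℝ) < T := by positivity
  have haR : (0 : ℝ) < a := by exact_mod_cast ha
  refine ⟨1 / (2 * a * T), by positivity, ?_⟩
  intro q n N hq hqR hcop hX hN1 hN2
  obtain ⟨X, hXc, hXl, hXp⟩ := hX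
  have hqm : 0 < q ^ m := pow_pos hq m
  have haq : 0 < a * q ^ m := Nat.mul_pos ha hqm
  have hJN : a * q ^ m * (N / (a * q ^ m)) ≤ N := Nat.mul_div_le N _
  obtain ⟨A, hAc, hAsub, hAX⟩ := block_set a (q ^ m) (N / (a * q ^ m)) N n ha hqm hJN X hXc hXl
  -- exceptional differences
  let Ex : Finset ℕ := range n0 ∪
    (range ((K * B + 1) * q)).filter (fun n : ℕ => (q : ℤ) ∣ g.eval (n : ℤ))
  let E : Finset ℤ := (Ex.image (fun n : ℕ => (C (a : ℤ) * (g ^ m * f)).eval (n : ℤ))).erase 0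
  have hEc : E.card ≤ n0 + C1 * (K * B + 1) := by
    calc E.card ≤ (Ex.image (fun n : ℕ => (C (a : ℤ) * (g ^ m * f)).eval (n : ℤ))).card :=
          card_le_card (erase_subset _ _)
      _ ≤ Ex.card := card_image_le
      _ ≤ (range n0).card + _ := card_union_le _ _
      _ ≤ n0 + C1 * (K * B + 1) := by
          rw [card_range]
          exact Nat.add_le_add_left (hC1 q hq hqR _) _
  obtain ⟨A', hA'A, hA'c, hA'E⟩ := greedy_sub A E (notMem_erase 0 _)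
  have hdf : DiffFree (C (a : ℤ) * (g ^ m * f)) A' := by
    rintro d ⟨hd, n', hn', hnd⟩
    rw [Set.mem_sub] at hd
    obtain ⟨y, hy, x, hx, hxy⟩ := hd
    rw [mem_coe] at hx hy
    by_contra hd0
    rw [Set.mem_singleton_iff] at hd0
    apply hA'E x hx y hy
    rw [hxy, ← hnd]
    refine mem_erase.2 ⟨by rw [hnd]; exact hd0, ?_⟩
    apply mem_image_of_mem
    have hyN := mem_Icc.1 (hAsub (hA'A hy))
    have hxN := mem_Icc.1 (hAsub (hA'A hx))
    have ha' : (a : ℤ) ≠ 0 := by exact_mod_cast ha.ne'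
    have hev : (C (a : ℤ) * (g ^ m * f)).eval (n' : ℤ) =
        a * (g.eval (n' : ℤ) ^ m * f.eval (n' : ℤ)) := by
      simp only [eval_mul, eval_C, eval_pow]
    have hev1 : (g ^ m * f).eval (n' : ℤ) = g.eval (n' : ℤ) ^ m * f.eval (n' : ℤ) := by
      simp only [eval_mul, eval_pow]
    have hφ := hΦ n' hn'
    have hqd : (q : ℤ) ∣ g.eval (n' : ℤ) :=
      diff_dvd _ _ (a : ℤ) y x X Φ m q (by omega) ha' (hcop _ hφ) hφ hXp
        (hAX y (hA'A hy)) (hAX x (hA'A hx)) (by rw [hxy, ← hnd, hev])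
    simp only [Ex, mem_union, mem_filter, mem_range]
    by_cases hn0 : n' < n0
    · exact Or.inl hn0
    · right
      refine ⟨?_, hqd⟩
      have h3 : |(a : ℤ) * (g ^ m * f).eval (n' : ℤ)| ≤ N := by
        rw [hev1, ← hev, hnd, ← hxy, abs_le]
        constructor <;> linarith
      have h4 : |(g ^ m * f).eval (n' : ℤ)| ≤ |(a : ℤ) * (g ^ m * f).eval (n' : ℤ)| := by
        rw [abs_mul]
        exact le_mul_of_one_le_left (abs_nonneg _) (Int.one_le_abs ha')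
      exact small_arg (g ^ m * f) K n0 hk hsm q N B n' hq hN2 (Nat.le_of_not_lt hn0) (h4.trans h3)
  have hfin := card_le_rMax' (hA'A.trans hAsub) hdf
  -- numbers
  have h1 : n * (N / (a * q ^ m)) ≤ T * rMax (C (a : ℤ) * (g ^ m * f)) N := by
    rw [← hAc]
    calc A.card ≤ (2 * E.card + 1) * A'.card := hA'c
      _ ≤ T * A'.card := Nat.mul_le_mul_right _ (by omega)
      _ ≤ _ := Nat.mul_le_mul_left _ hfin
  have hJ1 : 1 ≤ N / (a * q ^ m) := (Nat.one_le_div_iff haq).2 hN1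
  have h2 : N ≤ 2 * (a * q ^ m) * (N / (a * q ^ m)) := by
    have h3 : N < a * q ^ m * (N / (a * q ^ m) + 1) := Nat.lt_mul_div_succ N haq
    have h5 : a * q ^ m * 1 ≤ a * q ^ m * (N / (a * q ^ m)) := Nat.mul_le_mul_left _ hJ1
    rw [mul_add] at h3
    rw [mul_assoc]
    omega
  generalize N / (a * q ^ m) = J at h1 h2
  have h3 : ((n : ℝ) * J) ≤ T * (rMax (C (a : ℤ) * (g ^ m * f)) N : ℝ) := by exact_mod_cast h1
  have h4 : (N : ℝ) ≤ 2 * (a * (q : ℝ) ^ m) * J := by exact_mod_cast h2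
  have hqR' : (0 : ℝ) < (q : ℝ) ^ m := by positivity
  rw [div_le_iff₀ hqR', one_div, mul_assoc, inv_mul_le_iff₀ (by positivity)]
  calc (N : ℝ) * n ≤ (2 * (a * (q : ℝ) ^ m) * J) * n :=
        mul_le_mul_of_nonneg_right h4 (by positivity)
    _ = (2 * a * (q : ℝ) ^ m) * (n * J) := by ring
    _ ≤ (2 * a * (q : ℝ) ^ m) * (T * (rMax (C (a : ℤ) * (g ^ m * f)) N : ℝ)) :=
        mul_le_mul_of_nonneg_left h3 (by positivity)
    _ = _ := by ring

/-- Transfer for `h = a g^m`. -/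
theorem transfer (g : ℤ[X]) (hg : Squarefree (g.map (Int.castRingHom ℚ)))
    (hd : 1 ≤ g.natDegree) (a : ℕ) (ha : 0 < a) (m : ℕ) (hm : 1 ≤ m) (R B : ℕ) (hR : 0 < R) :
    ∃ c : ℝ, 0 < c ∧ ∀ q n N : ℕ, 0 < q → q.primeFactors ⊆ R.primeFactors → Ind m q n →
      a * q ^ m ≤ N → N ≤ B * q ^ (m * g.natDegree) →
      c * (N : ℝ) * n / (q : ℝ) ^ m ≤ (rMax (C (a : ℤ) * g ^ m) N : ℝ) := by
  have hdeg : (g ^ m * 1).natDegree = m * g.natDegree := by rw [mul_one, natDegree_pow]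
  obtain ⟨c, hc, h⟩ := transferF g 1 hg a ha m hm (by rw [hdeg]; nlinarith) {1}
    (fun n _ => by simp) R B hR
  refine ⟨c, hc, fun q n N hq hqR hI h1 h2 => ?_⟩
  have h3 := h q n N hq hqR (fun φ hφ => by
    rw [Set.mem_singleton_iff] at hφ; rw [hφ]; exact isCoprime_one_left) hI.toF h1 (by rwa [hdeg])
  rwa [mul_one] at h3

end Vale.Agent.P042.LB
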